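import Vale.Agent.P171.Dim.GX

/-!
# Blocks of side `l` in dimension `d`
-/

set_option autoImplicit false

open MeasureTheory Filter Topology Metric
open scoped ENNReal

namespace Vale.Agent.P171.Dim

variable {d : ℕ}

theorem floor_diff (R : ℕ) {x y : (E d)} (h : ‖x - y‖ < (R : ℝ)) (c : Fin d) :
    |⌊x c⌋ - ⌊y c⌋| ≤ R := by
  have h0 : |x c - y c| < (R : ℝ) := by
    have := abs_coord_le_norm (x - y) c
    have h' : (x - y) c = x c - y c := rfl
    rw [h'] at this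
    exact lt_of_le_of_lt this h
  obtain ⟨h1, h2⟩ := abs_lt.mp h0
  have hx1 := Int.floor_le (x c)
  have hx2 := Int.lt_floor_add_one (x c)
  have hy1 := Int.floor_le (y c)
  have hy2 := Int.lt_floor_add_one (y c)
  have h3 : ⌊x c⌋ ≤ ⌊y c⌋ + (R : ℤ) := by
    have : (⌊x c⌋ : ℝ) < (⌊y c⌋ : ℝ) + R + 1 := by linarith
    have : ⌊x c⌋ < ⌊y c⌋ + (R : ℤ) + 1 := by exact_mod_cast this
    omega
  have h4 : ⌊y c⌋ ≤ ⌊x c⌋ + (R : ℤ) := by
    have : (⌊y c⌋ : ℝ) < (⌊x c⌋ : ℝ) + R + 1 := by linarith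
    have : ⌊y c⌋ < ⌊x c⌋ + (R : ℤ) + 1 := by exact_mod_cast this
    omega
  rw [abs_le]
  constructor <;> omega

/-- a pair at distance `< R` is in the same shifted block for at least `l - dR` shifts -/
theorem sum_same_ge (l : ℕ) (hl : 0 < l) (R : ℕ) {x y : (E d)} (h : ‖x - y‖ < (R : ℝ)) :
    (l : ℝ) - d * R ≤ ∑ θ ∈ Finset.range l, same l θ x y := by
  have h1 : ∀ θ ∈ Finset.range l, 1 - same l θ x y ≤
      ∑ c : Fin d, if (⌊x c⌋ + (θ : ℤ)) / (l : ℤ) = (⌊y c⌋ + (θ : ℤ)) / (l : ℤ) then (0 : ℝ) else 1 := by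
    intro θ _
    unfold same
    by_cases hb : blk l θ x = blk l θ y
    · rw [if_pos hb]
      simp only [sub_self]
      exact Finset.sum_nonneg fun c _ => by split_ifs <;> norm_num
    · rw [if_neg hb]
      have : ∃ c, blk l θ x c ≠ blk l θ y c := by
        by_contra hcon
        push Not at hcon
        exact hb (funext hcon)
      obtain ⟨c, hc⟩ := this
      have h2 : (1 : ℝ) = if (⌊x c⌋ + (θ : ℤ)) / (l : ℤ) = (⌊y c⌋ + (θ : ℤ)) / (l : ℤ) then (0 : ℝ) else 1 := by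
        rw [if_neg]
        exact hc
      rw [sub_zero]
      calc (1 : ℝ) = _ := h2
        _ ≤ _ := Finset.single_le_sum (f := fun c : Fin d =>
          if (⌊x c⌋ + (θ : ℤ)) / (l : ℤ) = (⌊y c⌋ + (θ : ℤ)) / (l : ℤ) then (0 : ℝ) else 1)
          (fun c _ => by split_ifs <;> norm_num) (Finset.mem_univ c)
  have h2 := Finset.sum_le_sum h1
  rw [Finset.sum_sub_distrib, Finset.sum_const, Finset.card_range, nsmul_eq_mul, mul_one,
    Finset.sum_comm] at h2
  have h3 : ∑ c : Fin d, ∑ θ ∈ Finset.range l,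
      (if (⌊x c⌋ + (θ : ℤ)) / (l : ℤ) = (⌊y c⌋ + (θ : ℤ)) / (l : ℤ) then (0 : ℝ) else 1) ≤
      ∑ c : Fin d, (R : ℝ) :=
    Finset.sum_le_sum fun c _ => count_ne_le l hl _ _ R (floor_diff R h c)
  simp only [Finset.sum_const, Finset.card_univ, Fintype.card_fin, nsmul_eq_mul] at h3
  push_cast at h3
  linarith

theorem measurable_blk (l θ : ℕ) : Measurable (blk (d := d) l θ) := by
  rw [measurable_pi_iff]
  intro c
  unfold blk
  have h1 : Measurable (fun x : (E d) => ⌊x c⌋) := by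
    apply Int.measurable_floor.comp
    fun_prop
  exact (measurable_of_countable (fun z : ℤ => (z + (θ : ℤ)) / (l : ℤ))).comp h1

theorem measurable_same (l θ : ℕ) : Measurable (Function.uncurry (same (d := d) l θ)) := by
  have h1 : Measurable (fun p : (E d) × (E d) => (blk l θ p.1, blk l θ p.2)) :=
    ((measurable_blk l θ).comp measurable_fst).prodMk ((measurable_blk l θ).comp measurable_snd)
  classical
  have h2 : Measurable (fun q : (Fin d → ℤ) × (Fin d → ℤ) => if q.1 = q.2 then (1 : ℝ) else 0) :=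
    measurable_of_countable _
  have h3 := h2.comp h1
  have h4 : Function.uncurry (same (d := d) l θ) =
      ((fun q : (Fin d → ℤ) × (Fin d → ℤ) => if q.1 = q.2 then (1 : ℝ) else 0) ∘
        fun p : (E d) × (E d) => (blk l θ p.1, blk l θ p.2)) := by
    ext p
    simp only [Function.uncurry, same, Function.comp]
  rw [h4]
  exact h3

theorem same_symm (l θ : ℕ) (x y : (E d)) : same l θ x y = same l θ y x := by
  unfold same
  by_cases h : blk l θ x = blk l θ y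
  · rw [if_pos h, if_pos h.symm]
  · rw [if_neg h, if_neg (fun h' => h h'.symm)]

/-- the block with index `g` -/
def Bg (l θ : ℕ) (g : Fin d → ℤ) : Set (E d) := {x | blk l θ x = g}

theorem measurableSet_Bg (l θ : ℕ) (g : Fin d → ℤ) : MeasurableSet (Bg l θ g) :=
  (measurable_blk l θ) (measurableSet_singleton g)

theorem Bg_subset (l θ : ℕ) (hl : 0 < l) (g : Fin d → ℤ) :
    Bg l θ g ⊆ (fun x => x + (WithLp.toLp 2 (fun c => (l : ℝ) * (g c : ℝ) - θ) : (E d))) '' box d l := by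
  intro x hx
  refine ⟨x - (WithLp.toLp 2 (fun c => (l : ℝ) * (g c : ℝ) - θ) : (E d)), ?_, by simp⟩
  intro c
  have h1 : (x - (WithLp.toLp 2 (fun c => (l : ℝ) * (g c : ℝ) - θ) : (E d))) c =
      x c - ((l : ℝ) * (g c : ℝ) - θ) := rfl
  rw [h1]
  have h2 : (⌊x c⌋ + (θ : ℤ)) / (l : ℤ) = g c := congrFun hx c
  have hl' : (0 : ℤ) < (l : ℤ) := by exact_mod_cast hl
  have h3 : g c * (l : ℤ) ≤ ⌊x c⌋ + (θ : ℤ) := by
    rw [← h2]; exact Int.ediv_mul_le _ hl'.ne'
  have h4 : ⌊x c⌋ + (θ : ℤ) < (g c + 1) * (l : ℤ) := by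
    rw [← h2]; exact Int.lt_ediv_add_one_mul_self _ hl'
  have h5 : ⌊x c⌋ + (θ : ℤ) + 1 ≤ (g c + 1) * (l : ℤ) := h4
  have h3' : (g c : ℝ) * (l : ℝ) ≤ (⌊x c⌋ : ℝ) + θ := by exact_mod_cast h3
  have h5' : (⌊x c⌋ : ℝ) + θ + 1 ≤ ((g c : ℝ) + 1) * (l : ℝ) := by exact_mod_cast h5
  have h6 := Int.floor_le (x c)
  have h7 := Int.lt_floor_add_one (x c)
  constructor
  · linarith
  · linarith

theorem box_cover (l θ m : ℕ) (hl : 0 < l) (hθ : θ < l) :
    box d ((m * l : ℕ) : ℝ) ⊆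
      ⋃ g ∈ (Fintype.piFinset (fun _ : Fin d => Finset.Icc (0 : ℤ) m)), Bg l θ g := by
  intro x hx
  simp only [Set.mem_iUnion]
  refine ⟨blk l θ x, ?_, rfl⟩
  rw [Fintype.mem_piFinset]
  intro c
  obtain ⟨h1, h2⟩ := hx c
  have hl' : (0 : ℤ) < (l : ℤ) := by exact_mod_cast hl
  have h3 : 0 ≤ ⌊x c⌋ := Int.floor_nonneg.mpr h1
  have h4 : ⌊x c⌋ ≤ ((m * l : ℕ) : ℤ) := by
    have := Int.floor_le_floor h2
    rwa [Int.floor_natCast] at this
  rw [Finset.mem_Icc]
  unfold blk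
  constructor
  · apply Int.ediv_nonneg _ hl'.le
    omega
  · have h5 : ⌊x c⌋ + (θ : ℤ) < ((m : ℤ) + 1) * l := by
      push_cast at h4
      have : (θ : ℤ) < l := by exact_mod_cast hθ
      nlinarith
    have := Int.ediv_lt_of_lt_mul hl' h5
    omega

end Vale.Agent.P171.Dim
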