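import Vale.Agent.P171.Dim.Kac

/-!
# The potentials: a core minus a series of Kac kernels, in dimension `d`
-/

set_option autoImplicit false

open MeasureTheory Filter Topology Metric
open scoped ENNReal

namespace Vale.Agent.P171.Dim

variable {d : ℕ} [NeZero d]

/-- Repulsive core: `A` for `ρ ≤ d + 1`, linear between `d + 1` and `d + 2`, zero beyond. -/
noncomputable def core (d : ℕ) (A ρ : ℝ) : ℝ := A * max 0 (min 1 ((d : ℝ) + 2 - ρ))

/-- Attractive part with coefficients `c` and radii `rr`. -/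
noncomputable def gsum (d : ℕ) [NeZero d] (rr c : ℕ → ℝ) (ρ : ℝ) : ℝ := ∑' k, c k * kac d (rr k) ρ

theorem core3_nonneg {A : ℝ} (hA : 0 ≤ A) (ρ : ℝ) : 0 ≤ core d A ρ :=
  mul_nonneg hA (le_max_left _ _)

theorem core3_le {A : ℝ} (hA : 0 ≤ A) (ρ : ℝ) : core d A ρ ≤ A := by
  unfold core
  have : max 0 (min 1 ((d : ℝ) + 2 - ρ)) ≤ 1 := max_le zero_le_one (min_le_left _ _)
  nlinarith

theorem core3_eq_zero {A ρ : ℝ} (h : (d : ℝ) + 2 ≤ ρ) : core d A ρ = 0 := by
  unfold core
  have h1 : min 1 ((d : ℝ) + 2 - ρ) ≤ 0 := (min_le_right _ _).trans (by linarith)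
  rw [max_eq_left h1, mul_zero]

theorem core3_eq {A ρ : ℝ} (h : ρ ≤ (d : ℝ) + 1) : core d A ρ = A := by
  unfold core
  have h1 : min 1 ((d : ℝ) + 2 - ρ) = 1 := min_eq_left (by linarith)
  rw [h1, max_eq_right zero_le_one, mul_one]

theorem measurable_core3 (A : ℝ) : Measurable (core d A) := by
  unfold core; fun_prop

/-- Standing assumptions on coefficients and radii. -/
structure Coef (d : ℕ) (rr c : ℕ → ℝ) : Prop where
  nn : ∀ k, 0 ≤ c k
  sm : Summable c
  rad2 : ∀ k, (d : ℝ) + 1 ≤ rr k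

theorem kac_le_one {r : ℝ} (hr : (d : ℝ) + 1 ≤ r) (ρ : ℝ) : kac d r ρ ≤ 1 := by
  have hd : (0 : ℝ) ≤ d := Nat.cast_nonneg d
  refine (kac_le (by linarith) ρ).trans ?_
  apply inv_le_one_of_one_le₀
  apply one_le_pow₀
  rw [one_le_div (by linarith)]
  exact hr

theorem Coef.summable {rr c : ℕ → ℝ} (h : Coef d rr c) (ρ : ℝ) :
    Summable (fun k => c k * kac d (rr k) ρ) := by
  refine Summable.of_nonneg_of_le (fun k => mul_nonneg (h.nn k) (kac_nonneg _ _)) (fun k => ?_) h.sm
  exact mul_le_of_le_one_right (h.nn k) (kac_le_one (h.rad2 k) ρ)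

theorem gsum_nonneg {rr c : ℕ → ℝ} (h : Coef d rr c) (ρ : ℝ) : 0 ≤ gsum d rr c ρ :=
  tsum_nonneg fun k => mul_nonneg (h.nn k) (kac_nonneg _ _)

theorem gsum_le {rr c : ℕ → ℝ} (h : Coef d rr c) (ρ : ℝ) : gsum d rr c ρ ≤ ∑' k, c k :=
  (h.summable ρ).tsum_le_tsum (fun k => mul_le_of_le_one_right (h.nn k) (kac_le_one (h.rad2 k) ρ))
    h.sm

theorem measurable_gsum {rr c : ℕ → ℝ} (h : Coef d rr c) : Measurable (gsum d rr c) := by
  refine measurable_of_tendsto_metrizable
    (f := fun (n : ℕ) (ρ : ℝ) => ∑ k ∈ Finset.range n, c k * kac d (rr k) ρ) (fun n => ?_) ?_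
  · exact Finset.measurable_sum _ (fun k _ => (measurable_kac _).const_mul _)
  · rw [tendsto_pi_nhds]
    intro r
    exact (h.summable r).hasSum.tendsto_sum_nat

theorem quad_gsum {rr c : ℕ → ℝ} (h : Coef d rr c) {ι : Type} [Fintype ι] (x : ι → (E d)) :
    HasSum (fun k => c k * quad (rad (kac d (rr k))) x) (quad (rad (gsum d rr c)) x) := by
  have h1 : ∀ k, c k * quad (rad (kac d (rr k))) x = ∑ i, ∑ j, c k * kac d (rr k) ‖x i - x j‖ := by
    intro k
    unfold quad rad
    rw [Finset.mul_sum]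
    refine Finset.sum_congr rfl fun i _ => ?_
    rw [Finset.mul_sum]
  simp_rw [h1]
  unfold quad rad gsum
  refine hasSum_sum fun i _ => hasSum_sum fun j _ => (h.summable _).hasSum

theorem quad_gsum_le {rr c : ℕ → ℝ} (h : Coef d rr c) {ι : Type} [Fintype ι] (x : ι → (E d)) :
    quad (rad (gsum d rr c)) x ≤ 4 ^ d * (∑' k, c k) * quad (same 1 0) x := by
  have h1 := quad_gsum h x
  have hd : (0 : ℝ) ≤ d := Nat.cast_nonneg d
  have h2 : ∀ k, c k * quad (rad (kac d (rr k))) x ≤ c k * (4 ^ d * quad (same 1 0) x) := by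
    intro k
    apply mul_le_mul_of_nonneg_left _ (h.nn k)
    have hr := h.rad2 k
    have hr0 : 0 < rr k := by linarith
    have h3 := kac_quad_le 1 0 one_pos hr0 x
    refine h3.trans ?_
    apply mul_le_mul_of_nonneg_right
    · have h4 : ((d : ℝ) + 1) * ((1 : ℕ) : ℝ) / rr k ≤ 1 := by
        rw [div_le_one hr0]; simpa using hr
      have h5 : (1 + ((d : ℝ) + 1) * ((1 : ℕ) : ℝ) / rr k) ^ (2 * d) ≤ 2 ^ (2 * d) := by
        apply pow_le_pow_left₀
        · positivity
        · linarith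
      have h6 : ((1 : ℕ) : ℝ) ^ d = 1 := by simp
      rw [h6, div_one]
      refine h5.trans (le_of_eq ?_)
      rw [pow_mul]
      norm_num
    · exact quad_nonneg x (fun i j => same_nonneg _ _ _ _)
  have h3 : HasSum (fun k => c k * (4 ^ d * quad (same 1 0) x))
      ((∑' k, c k) * (4 ^ d * quad (same 1 0) x)) := h.sm.hasSum.mul_right _
  have h4 := hasSum_le h2 h1 h3
  linarith

theorem nice_core_sub {rr c : ℕ → ℝ} (h : Coef d rr c) {A κ : ℝ} (hA : 0 ≤ A)
    (hle : 4 ^ d * (∑' k, c k) + κ ≤ A) : Nice κ (rad (d := d) (fun ρ => core d A ρ - gsum d rr c ρ)) where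
  meas := by
    have : Measurable (fun ρ => core d A ρ - gsum d rr c ρ) :=
      (measurable_core3 A).sub (measurable_gsum h)
    exact this.comp (measurable_fst.sub measurable_snd).norm
  symm := fun x y => by unfold rad; rw [norm_sub_rev]
  trans := fun v x y => by unfold rad; rw [add_sub_add_right_eq_sub]
  far := fun x y hxy => by
    change core d A ‖x - y‖ - gsum d rr c ‖x - y‖ ≤ 0
    rw [core3_eq_zero hxy]
    linarith [gsum_nonneg h ‖x - y‖]
  sup := fun x => by
    have h1 : quad (rad (d := d) (fun ρ => core d A ρ - gsum d rr c ρ)) x =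
        quad (rad (core d A)) x - quad (rad (gsum d rr c)) x := by
      rw [← quad_sub]; rfl
    have h2 : A * quad (same 1 0) x ≤ quad (rad (core d A)) x := by
      rw [← quad_smul]
      apply quad_mono
      intro i j
      unfold rad same
      split_ifs with hb
      · rw [core3_eq (same_one_near hb).le, mul_one]
      · rw [mul_zero]; exact core3_nonneg hA _
    have h3 := quad_gsum_le h x
    have h4 : 0 ≤ quad (same 1 0) x := quad_nonneg x (fun i j => same_nonneg _ _ _ _)
    have h5 := mul_le_mul_of_nonneg_right hle h4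
    rw [h1]
    linarith

theorem Coef.trunc {rr c : ℕ → ℝ} (h : Coef d rr c) (K : ℕ) : Coef d rr (trunc c K) where
  nn := fun k => by unfold P171.trunc; split_ifs; exacts [h.nn k, le_rfl]
  sm := Summable.of_nonneg_of_le
    (fun k => by unfold P171.trunc; split_ifs; exacts [h.nn k, le_rfl])
    (fun k => by unfold P171.trunc; split_ifs; exacts [le_rfl, h.nn k]) h.sm
  rad2 := h.rad2

theorem Coef.ctail {rr c : ℕ → ℝ} (h : Coef d rr c) (K : ℕ) : Coef d rr (ctail c K) where
  nn := fun k => by unfold P171.ctail; split_ifs; exacts [le_rfl, h.nn k]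
  sm := Summable.of_nonneg_of_le
    (fun k => by unfold P171.ctail; split_ifs; exacts [le_rfl, h.nn k])
    (fun k => by unfold P171.ctail; split_ifs; exacts [h.nn k, le_rfl]) h.sm
  rad2 := h.rad2

theorem tsum_trunc_le {rr c : ℕ → ℝ} (h : Coef d rr c) (K : ℕ) : ∑' k, trunc c K k ≤ ∑' k, c k :=
  (h.trunc K).sm.tsum_le_tsum (fun k => by
    unfold P171.trunc; split_ifs; exacts [le_rfl, h.nn k]) h.sm

theorem gsum_add {rr c c' : ℕ → ℝ} (h : Coef d rr c) (h' : Coef d rr c') (ρ : ℝ) :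
    gsum d rr (fun k => c k + c' k) ρ = gsum d rr c ρ + gsum d rr c' ρ := by
  unfold gsum
  rw [← (h.summable ρ).tsum_add (h'.summable ρ)]
  congr 1; funext k; ring

theorem gsum_smul {rr c : ℕ → ℝ} (s ρ : ℝ) :
    gsum d rr (fun k => s * c k) ρ = s * gsum d rr c ρ := by
  unfold gsum
  rw [← tsum_mul_left]
  congr 1; funext k; ring

theorem Coef.add {rr c c' : ℕ → ℝ} (h : Coef d rr c) (h' : Coef d rr c') :
    Coef d rr (fun k => c k + c' k) where
  nn := fun k => add_nonneg (h.nn k) (h'.nn k)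
  sm := h.sm.add h'.sm
  rad2 := h.rad2

theorem Coef.smul {rr c : ℕ → ℝ} (h : Coef d rr c) {s : ℝ} (hs : 0 ≤ s) :
    Coef d rr (fun k => s * c k) where
  nn := fun k => mul_nonneg hs (h.nn k)
  sm := h.sm.mul_left s
  rad2 := h.rad2

theorem gsum_split {rr c : ℕ → ℝ} (h : Coef d rr c) (K : ℕ) (ρ : ℝ) :
    gsum d rr c ρ = gsum d rr (trunc c K) ρ + gsum d rr (ctail c K) ρ := by
  rw [← gsum_add (h.trunc K) (h.ctail K)]
  congr 1; funext k; unfold P171.trunc P171.ctail; split_ifs <;> simp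

theorem gsum_trunc_succ {rr c : ℕ → ℝ} (h : Coef d rr c) (K : ℕ) (ρ : ℝ) :
    gsum d rr (trunc c (K + 1)) ρ = gsum d rr (trunc c K) ρ + c K * kac d (rr K) ρ := by
  unfold gsum
  have h1 : (fun k => trunc c (K + 1) k * kac d (rr k) ρ) = fun k => trunc c K k * kac d (rr k) ρ +
      if k = K then c K * kac d (rr K) ρ else 0 := by
    funext k
    unfold P171.trunc
    rcases lt_trichotomy k K with hk | hk | hk
    · rw [if_pos (by omega), if_pos hk, if_neg (by omega), add_zero]
    · subst hk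
      rw [if_pos (by omega), if_neg (by omega), if_pos rfl, zero_mul, zero_add]
    · rw [if_neg (by omega), if_neg (by omega), if_neg (by omega), zero_mul, zero_add]
  rw [h1, Summable.tsum_add ((h.trunc K).summable ρ), tsum_ite_eq]
  exact summable_of_ne_finset_zero (s := {K}) (by
    intro j hj
    rw [if_neg (by simpa using hj)])

theorem gsum_trunc_zero (rr c : ℕ → ℝ) (ρ : ℝ) : gsum d rr (trunc c 0) ρ = 0 := by
  unfold gsum P171.trunc; simp

/-- Vanishing of the truncated sum beyond the largest range. -/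
theorem gsum_trunc_eq_zero {rr c : ℕ → ℝ} (h : Coef d rr c) (K : ℕ) {ρ : ℝ}
    (hρ : ∀ j < K, 2 * rr j ≤ ρ) : gsum d rr (trunc c K) ρ = 0 := by
  unfold gsum
  have : ∀ k, trunc c K k * kac d (rr k) ρ = 0 := by
    intro k
    unfold P171.trunc
    split_ifs with hk
    · rw [kac_eq_zero (by linarith [h.rad2 k]) (hρ k hk), mul_zero]
    · rw [zero_mul]
  simp [this]

end Vale.Agent.P171.Dim
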