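import Vale.Agent.P171.Dim.Step

/-!
# The coefficients, continuity and two-sided decay in dimension `d`
-/

set_option autoImplicit false
set_option linter.unusedSectionVars false

open MeasureTheory Filter Topology Metric
open scoped ENNReal

namespace Vale.Agent.P171.Dim

variable {d : ℕ} [NeZero d]

theorem coef3 {B : ℕ} (hB : d + 2 ≤ B) : Coef d (rr3 B) (al3 B) where
  nn := fun k => (al3_pos (by omega) k).le
  sm := summable_al3 (by omega)
  rad2 := fun k => by
    unfold rr3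
    have h2 : 2 ≤ B := by omega
    have := two_le_bBr h2 k
    have h1 : (d : ℝ) + 1 ≤ (bB B k : ℝ) := by
      have : d + 1 ≤ bB B k := (by omega : d + 1 ≤ B).trans (B_le_bB (by omega) k)
      exact_mod_cast this
    calc (d : ℝ) + 1 ≤ (bB B k : ℝ) ^ 1 := by simpa using h1
      _ ≤ (bB B k : ℝ) ^ 16 := pow_le_pow_right₀ (by linarith) (by norm_num)

theorem rr3_pos {B : ℕ} (hB : d + 2 ≤ B) (k : ℕ) : 0 < rr3 B k := by
  have h := (coef3 hB).rad2 k
  have hd : (0 : ℝ) ≤ d := Nat.cast_nonneg d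
  linarith

theorem gsum3_zero {B : ℕ} (hB : d + 2 ≤ B) (K : ℕ) (ρ : ℝ) (hρ : ((RR3 B K : ℕ) : ℝ) ≤ ρ) :
    gsum d (rr3 B) (trunc (al3 B) K) ρ = 0 := by
  apply gsum_trunc_eq_zero (coef3 hB)
  intro j hj
  have hK : K ≠ 0 := by omega
  refine le_trans ?_ hρ
  unfold RR3 rr3
  rw [if_neg hK]
  push_cast
  have h1 : bB B (j + 1) ≤ bB B K := bB_mono (by omega) hj
  rw [bB_succ] at h1
  have h2 : (bB B j : ℝ) ^ 2 ≤ (bB B K : ℝ) := by exact_mod_cast h1
  have h3 : ((bB B j : ℝ) ^ 2) ^ 8 ≤ (bB B K : ℝ) ^ 8 := pow_le_pow_left₀ (by positivity) h2 8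
  rw [← pow_mul] at h3
  norm_num at h3
  linarith

theorem continuous_core3 (A : ℝ) : Continuous (core d A) := by
  unfold core
  fun_prop

theorem continuous_kac (r : ℝ) : Continuous (kac d r) := by
  have h1 : kac d r = fun ρ => ovl r 0 (EuclideanSpace.single (0 : Fin d) ρ) / vball d r ^ 2 := rfl
  rw [h1]
  apply Continuous.div_const
  have h2 : Continuous (fun ρ : ℝ => (EuclideanSpace.single (0 : Fin d) ρ : (E d))) := by
    have h3 : (fun ρ : ℝ => (EuclideanSpace.single (0 : Fin d) ρ : (E d)))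
        = fun ρ : ℝ => ρ • (EuclideanSpace.single (0 : Fin d) (1 : ℝ) : (E d)) := by
      funext ρ
      ext i
      by_cases hi : i = 0 <;> simp [hi]
    rw [h3]
    fun_prop
  refine Continuous.comp (g := fun y : (E d) => ovl r 0 y) ?_ h2
  have h4 : (fun y : (E d) => ovl r 0 y) = fun y => ∫ z,
      (Metric.ball (0 : (E d)) r ∩ Metric.ball y r).indicator (fun _ => (1 : ℝ)) z := by
    funext y
    rw [integral_ind (measurableSet_ball.inter measurableSet_ball)]
    rfl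
  rw [h4, continuous_iff_continuousAt]
  intro y₀
  refine continuousAt_of_dominated
    (bound := fun z => (Metric.ball (0 : (E d)) r).indicator (fun _ => (1 : ℝ)) z) ?_ ?_ ?_ ?_
  · refine Eventually.of_forall fun y => ?_
    exact (measurable_const.indicator
      (measurableSet_ball.inter measurableSet_ball)).aestronglyMeasurable
  · refine Eventually.of_forall fun y => Eventually.of_forall fun z => ?_
    rw [Real.norm_eq_abs, abs_of_nonneg (Set.indicator_nonneg (fun _ _ => zero_le_one) _)]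
    by_cases hz : z ∈ Metric.ball (0 : (E d)) r ∩ Metric.ball y r
    · rw [Set.indicator_of_mem hz, Set.indicator_of_mem hz.1]
    · rw [Set.indicator_of_notMem hz]
      exact Set.indicator_nonneg (fun _ _ => zero_le_one) _
  · exact integrable_ind measurableSet_ball (volume_ball_ne_top _ _)
  · have h5 : ∀ᵐ z : (E d), z ∉ Metric.sphere y₀ r := by
      rw [ae_iff]
      simp only [not_not]
      exact Measure.addHaar_sphere volume y₀ r
    filter_upwards [h5] with z hz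
    have hz' : dist z y₀ ≠ r := hz
    have hc : Continuous fun y : (E d) => dist z y := by fun_prop
    rcases lt_or_gt_of_ne hz' with h | h
    · have h6 : ∀ᶠ y in 𝓝 y₀, dist z y < r := hc.continuousAt.eventually_lt_const h
      refine EventuallyEq.continuousAt (y := (Metric.ball (0 : (E d)) r).indicator
        (fun _ => (1 : ℝ)) z) ?_
      filter_upwards [h6] with y hy
      by_cases h0 : z ∈ Metric.ball (0 : (E d)) r
      · rw [Set.indicator_of_mem
          (show z ∈ Metric.ball (0 : (E d)) r ∩ Metric.ball y r from ⟨h0, hy⟩),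
          Set.indicator_of_mem h0]
      · rw [Set.indicator_of_notMem (fun h' => h0 h'.1), Set.indicator_of_notMem h0]
    · have h6 : ∀ᶠ y in 𝓝 y₀, r < dist z y := hc.continuousAt.eventually_const_lt h
      refine EventuallyEq.continuousAt (y := 0) ?_
      filter_upwards [h6] with y hy
      rw [Set.indicator_of_notMem]
      intro h'
      have h7 : dist z y < r := h'.2
      exact lt_asymm h7 hy

theorem continuous_gsum {rr c : ℕ → ℝ} (h : Coef d rr c) : Continuous (gsum d rr c) := by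
  refine continuous_tsum (fun j => (continuous_kac (rr j)).const_mul _) h.sm fun j ρ => ?_
  rw [Real.norm_eq_abs, abs_of_nonneg (mul_nonneg (h.nn j) (kac_nonneg _ _))]
  exact mul_le_of_le_one_right (h.nn j) (kac_le_one (h.rad2 j) ρ)

theorem continuous_prof3 (A : ℝ) {rr c : ℕ → ℝ} (h : Coef d rr c) :
    Continuous (fun ρ => core d A ρ - gsum d rr c ρ) :=
  (continuous_core3 A).sub (continuous_gsum h)

theorem prof3_bounded {A : ℝ} (hA : 0 ≤ A) {rr c : ℕ → ℝ} (h : Coef d rr c) (ρ : ℝ) :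
    |core d A ρ - gsum d rr c ρ| ≤ A + ∑' k, c k := by
  have h1 := core3_nonneg (d := d) hA ρ
  have h2 := core3_le (d := d) hA ρ
  have h3 := gsum_nonneg h ρ
  have h4 := gsum_le h ρ
  rw [abs_le]
  constructor <;> linarith

/-- the decay exponent -/
noncomputable def dexp (d : ℕ) : ℝ := (d : ℝ) + 1 / 32

theorem one_le_rpow_of_le {s t : ℝ} (hs : 0 < s) (hst : s ≤ t) :
    1 ≤ t ^ dexp d * s ^ (-dexp d) := by
  have hd : 0 ≤ dexp d := by unfold dexp; positivity
  rw [Real.rpow_neg hs.le, ← div_eq_mul_inv, ← Real.div_rpow (hs.le.trans hst) hs.le]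
  apply Real.one_le_rpow _ hd
  rw [le_div_iff₀ hs]
  linarith

theorem core3_decay {A : ℝ} (hA : 0 ≤ A) {ρ : ℝ} (hρ : 0 < ρ) :
    core d A ρ ≤ A * ((d : ℝ) + 2) ^ dexp d * ρ ^ (-dexp d) := by
  rcases le_total ((d : ℝ) + 2) ρ with h | h
  · rw [core3_eq_zero h]; positivity
  · have h1 := one_le_rpow_of_le (d := d) hρ h
    have h2 := core3_le (d := d) hA ρ
    calc core d A ρ ≤ A * 1 := by simpa using h2
      _ ≤ A * (((d : ℝ) + 2) ^ dexp d * ρ ^ (-dexp d)) := mul_le_mul_of_nonneg_left h1 hA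
      _ = _ := by ring

theorem term_zero_decay {B : ℕ} (hB : d + 2 ≤ B) {ρ : ℝ} (hρ : 0 < ρ) :
    al3 B 0 * kac d (rr3 B 0) ρ ≤ 2 ^ 22 * (2 * rr3 B 0) ^ dexp d * ρ ^ (-dexp d) := by
  have hr : 0 < rr3 B 0 := rr3_pos hB 0
  have h0 : al3 B 0 = 2 ^ 22 := by unfold al3; simp
  rw [h0]
  rcases le_total (2 * rr3 B 0) ρ with h | h
  · rw [kac_eq_zero hr h, mul_zero]; positivity
  · have h1 := one_le_rpow_of_le (d := d) hρ h
    have h2 := kac_le_one ((coef3 hB).rad2 0) ρ
    have h3 : (0 : ℝ) ≤ 2 ^ 22 := by norm_num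
    calc (2 : ℝ) ^ 22 * kac d (rr3 B 0) ρ ≤ 2 ^ 22 * 1 := mul_le_mul_of_nonneg_left h2 h3
      _ ≤ 2 ^ 22 * ((2 * rr3 B 0) ^ dexp d * ρ ^ (-dexp d)) := mul_le_mul_of_nonneg_left h1 h3
      _ = _ := by ring

/-- The constant of the tail. -/
noncomputable def Md (d : ℕ) : ℝ := ((d : ℝ) + 1) ^ d * 2 ^ (d + 1)

theorem term_succ_decay {B : ℕ} (hB : d + 2 ≤ B) (k : ℕ) {ρ : ℝ} (hρ : 0 < ρ) :
    al3 B (k + 1) * kac d (rr3 B (k + 1)) ρ ≤ Md d * ρ ^ (-dexp d) * (1 / 2) ^ (k + 1) := by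
  have hr : 0 < rr3 B (k + 1) := rr3_pos hB (k + 1)
  have hB2 : 2 ≤ B := by omega
  have hM : 0 < Md d := by unfold Md; positivity
  obtain ⟨c, hc⟩ : ∃ c : ℝ, c = (bB B k : ℝ) := ⟨_, rfl⟩
  have hc2 : 2 ≤ c := hc ▸ two_le_bBr hB2 k
  have hc0 : 0 < c := by linarith
  have hrr : rr3 B (k + 1) = c ^ 32 := by
    unfold rr3
    rw [bB_succ, hc]
    push_cast
    rw [← pow_mul]
  have hal : al3 B (k + 1) = (c ^ 2)⁻¹ := by
    unfold al3
    rw [if_neg (by omega), bB_succ, hc]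
    push_cast
    rfl
  have hck : (1 / c) ≤ (1 / 2) ^ (k + 1) := by
    have h1 : (2 : ℝ) ^ (k + 1) ≤ c := by
      rw [hc]
      exact_mod_cast two_pow_le_bB hB2 k
    rw [one_div, one_div, inv_pow]
    exact inv_anti₀ (by positivity) h1
  have hρn : 0 ≤ ρ ^ (-dexp d) := Real.rpow_nonneg hρ.le _
  rcases le_total (2 * rr3 B (k + 1)) ρ with h | h
  · rw [kac_eq_zero hr h, mul_zero]
    positivity
  · have h1 := one_le_rpow_of_le (d := d) hρ h
    have h2 := kac_le (d := d) hr ρ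
    have h3 : (2 * rr3 B (k + 1)) ^ dexp d ≤ 2 ^ (d + 1) * c ^ (32 * d + 1) := by
      rw [hrr, Real.mul_rpow (by norm_num) (by positivity)]
      have h4 : (c ^ 32) ^ dexp d = c ^ (32 * d + 1) := by
        rw [← Real.rpow_natCast c 32, ← Real.rpow_mul hc0.le, ← Real.rpow_natCast c (32 * d + 1)]
        congr 1
        unfold dexp
        push_cast
        ring
      have h5 : (2 : ℝ) ^ dexp d ≤ 2 ^ (d + 1) := by
        rw [← Real.rpow_natCast 2 (d + 1)]
        apply Real.rpow_le_rpow_of_exponent_le (by norm_num)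
        unfold dexp
        push_cast
        linarith
      rw [h4]
      exact mul_le_mul_of_nonneg_right h5 (by positivity)
    have h6 : al3 B (k + 1) * kac d (rr3 B (k + 1)) ρ ≤
        (c ^ 2)⁻¹ * (((c ^ 32) / ((d : ℝ) + 1)) ^ d)⁻¹ := by
      rw [hal]
      rw [hrr] at h2 ⊢
      exact mul_le_mul_of_nonneg_left h2 (by positivity)
    have h7 : (c ^ 2)⁻¹ * (((c ^ 32) / ((d : ℝ) + 1)) ^ d)⁻¹ =
        ((d : ℝ) + 1) ^ d * (c ^ (32 * d + 1))⁻¹ * (1 / c) := by
      rw [div_pow, ← pow_mul, pow_succ c (32 * d)]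
      field_simp
    calc al3 B (k + 1) * kac d (rr3 B (k + 1)) ρ
        ≤ ((d : ℝ) + 1) ^ d * (c ^ (32 * d + 1))⁻¹ * (1 / c) * 1 := by
          rw [mul_one, ← h7]; exact h6
      _ ≤ ((d : ℝ) + 1) ^ d * (c ^ (32 * d + 1))⁻¹ * (1 / c) *
          ((2 * rr3 B (k + 1)) ^ dexp d * ρ ^ (-dexp d)) :=
          mul_le_mul_of_nonneg_left h1 (by positivity)
      _ ≤ ((d : ℝ) + 1) ^ d * (c ^ (32 * d + 1))⁻¹ * (1 / c) *
          (2 ^ (d + 1) * c ^ (32 * d + 1) * ρ ^ (-dexp d)) := by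
          apply mul_le_mul_of_nonneg_left _ (by positivity)
          exact mul_le_mul_of_nonneg_right h3 hρn
      _ = Md d * ρ ^ (-dexp d) * (1 / c) := by
          unfold Md
          have hcp : c ^ (32 * d + 1) ≠ 0 := by positivity
          calc ((d : ℝ) + 1) ^ d * (c ^ (32 * d + 1))⁻¹ * (1 / c) *
              (2 ^ (d + 1) * c ^ (32 * d + 1) * ρ ^ (-dexp d))
              = ((d : ℝ) + 1) ^ d * 2 ^ (d + 1) * ρ ^ (-dexp d) * (1 / c) *
                ((c ^ (32 * d + 1))⁻¹ * c ^ (32 * d + 1)) := by ring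
            _ = _ := by rw [inv_mul_cancel₀ hcp, mul_one]
      _ ≤ Md d * ρ ^ (-dexp d) * (1 / 2) ^ (k + 1) :=
          mul_le_mul_of_nonneg_left hck (by positivity)

theorem gsum3_decay {B : ℕ} (hB : d + 2 ≤ B) {ρ : ℝ} (hρ : 0 < ρ) :
    gsum d (rr3 B) (al3 B) ρ ≤
      (2 ^ 22 * (2 * rr3 B 0) ^ dexp d + Md d) * ρ ^ (-dexp d) := by
  unfold gsum
  have hs := (coef3 hB).summable ρ
  rw [hs.tsum_eq_zero_add]
  have h0 := term_zero_decay hB hρ
  have hg : Summable (fun k : ℕ => Md d * ρ ^ (-dexp d) * (1 / 2 : ℝ) ^ (k + 1)) := by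
    apply Summable.mul_left
    exact (summable_nat_add_iff 1).mpr
      (summable_geometric_of_lt_one (by norm_num) (by norm_num : (1 / 2 : ℝ) < 1))
  have h1 := ((summable_nat_add_iff 1).mpr hs).tsum_le_tsum
    (fun k => term_succ_decay hB k hρ) hg
  have h2 : ∑' k : ℕ, (Md d * ρ ^ (-dexp d) * (1 / 2 : ℝ) ^ (k + 1)) =
      Md d * ρ ^ (-dexp d) := by
    rw [tsum_mul_left]
    have h3 : ∑' k : ℕ, (1 / 2 : ℝ) ^ (k + 1) = 1 := by
      simp_rw [pow_succ]
      rw [tsum_mul_right, tsum_geometric_of_lt_one (by norm_num) (by norm_num)]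
      norm_num
    rw [h3, mul_one]
  rw [h2] at h1
  linarith

/-- Two-sided bound `|φ(r)| ≤ C r ^ (-(d + ε))`. -/
theorem two_sided3 {A : ℝ} (hA : 0 ≤ A) {B : ℕ} (hB : d + 2 ≤ B) :
    ∃ C ε : ℝ, 0 < C ∧ 0 < ε ∧ ∀ ρ : ℝ, 0 < ρ →
      |core d A ρ - gsum d (rr3 B) (al3 B) ρ| ≤ C * ρ ^ (-((d : ℝ) + ε)) := by
  have hM : 0 < Md d := by unfold Md; positivity
  refine ⟨A * ((d : ℝ) + 2) ^ dexp d + (2 ^ 22 * (2 * rr3 B 0) ^ dexp d + Md d), 1 / 32, ?_,
    by norm_num, fun ρ hρ => ?_⟩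
  · have hr : 0 < rr3 B 0 := rr3_pos hB 0
    positivity
  · have hd : (-((d : ℝ) + 1 / 32) : ℝ) = -dexp d := by unfold dexp; ring
    rw [hd]
    have h1 := core3_nonneg (d := d) hA ρ
    have h2 := core3_decay (d := d) hA hρ
    have h3 := gsum_nonneg (coef3 hB) ρ
    have h4 := gsum3_decay hB hρ
    have h5 : 0 ≤ A * ((d : ℝ) + 2) ^ dexp d * ρ ^ (-dexp d) := by positivity
    rw [abs_le]
    constructor <;> linarith

theorem energy_eq_rad (φ : ℝ → ℝ) {N : ℕ} (x : Fin N → (E d)) :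
    energy φ x = (quad (rad φ) x - N * φ 0) / 2 := by
  have hsym : ∀ i j : Fin N, φ ‖x i - x j‖ = φ ‖x j - x i‖ := fun i j => by
    rw [norm_sub_rev]
  have h : quad (rad φ) x = 2 * energy φ x + N * φ 0 := by
    unfold quad energy rad
    have h1 : ∀ i : Fin N, ∑ j, φ ‖x i - x j‖
        = ∑ j ∈ Finset.Ioi i, φ ‖x i - x j‖ + ∑ j ∈ Finset.Iio i, φ ‖x i - x j‖ + φ 0 := by
      intro i
      have hu : (Finset.univ : Finset (Fin N)) = insert i (Finset.Ioi i ∪ Finset.Iio i) := by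
        ext j
        simp only [Finset.mem_univ, Finset.mem_insert, Finset.mem_union, Finset.mem_Ioi,
          Finset.mem_Iio, true_iff]
        rcases lt_trichotomy j i with h | h | h
        · right; right; exact h
        · left; exact h
        · right; left; exact h
      rw [hu, Finset.sum_insert (by simp), Finset.sum_union]
      · simp; ring
      · rw [Finset.disjoint_left]
        intro j hj hj'
        simp at hj hj'
        exact absurd (hj.trans hj') (lt_irrefl _)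
    simp_rw [h1]
    rw [Finset.sum_add_distrib, Finset.sum_add_distrib]
    have h2 : ∑ i : Fin N, ∑ j ∈ Finset.Iio i, φ ‖x i - x j‖
        = ∑ i : Fin N, ∑ j ∈ Finset.Ioi i, φ ‖x i - x j‖ := by
      have : ∑ i : Fin N, ∑ j ∈ Finset.Iio i, φ ‖x i - x j‖
        = ∑ j : Fin N, ∑ i ∈ Finset.Ioi j, φ ‖x i - x j‖ := by
        apply Finset.sum_comm'
        intro i j; simp
      rw [this]
      refine Finset.sum_congr rfl (fun i _ => Finset.sum_congr rfl (fun j _ => hsym _ _))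
    rw [h2]; simp; ring
  rw [h]; ring

theorem Xi_eq_GX_rad (φ : ℝ → ℝ) (z L : ℝ) (hz : 0 < z) :
    Xi d φ 1 z L = GX (box d L) (rad φ) (Real.log z + φ 0 / 2) := by
  unfold Xi GX Z
  refine tsum_congr (fun N => ?_)
  rw [← mul_assoc, mul_comm (ENNReal.ofReal (z ^ N)), mul_assoc]
  congr 1
  rw [← lintegral_const_mul' _ _ ENNReal.ofReal_ne_top]
  refine lintegral_congr (fun x => ?_)
  unfold wt
  rw [← ENNReal.ofReal_mul (by positivity)]
  congr 1
  rw [energy_eq_rad, Fintype.card_fin]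
  have : z ^ N = Real.exp (Real.log z * N) := by
    rw [Real.exp_mul, Real.exp_log hz, Real.rpow_natCast]
  rw [this, ← Real.exp_add]
  congr 1
  ring


/-- Official consequences of niceness of the pair function of a radial potential. -/
theorem stable_of_nice {φ : ℝ → ℝ} {κ : ℝ} (hκ : 0 ≤ κ) (h : Nice (d := d) κ (rad φ)) : Stable d φ := by
  refine ⟨|φ 0| / 2, fun N x _ => ?_⟩
  rw [energy_eq_rad]
  have h1 := h.sup x
  have h2 : 0 ≤ quad (same 1 0) x := quad_nonneg x (fun i j => same_nonneg _ _ _ _)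
  have h3 : (N : ℝ) * φ 0 ≤ N * |φ 0| :=
    mul_le_mul_of_nonneg_left (le_abs_self _) (Nat.cast_nonneg _)
  have h4 := mul_nonneg hκ h2
  linarith

theorem hasPressure_of_nice {φ : ℝ → ℝ} {κ : ℝ} (hκ : 1 ≤ κ) (h : Nice (d := d) κ (rad φ)) {z : ℝ}
    (hz : 0 < z) : HasPressure d φ 1 z (PW (d := d) (rad φ) (Real.log z + φ 0 / 2)) := by
  constructor
  · intro L hL
    rw [Xi_eq_GX_rad φ z L hz]
    exact nice_GX_ne_top hκ h hL _
  · refine (tendsto_pL hκ h (Real.log z + φ 0 / 2)).congr (fun L => ?_)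
    rw [Xi_eq_GX_rad φ z L hz]
    rfl

theorem tempered_of_nonpos {φ : ℝ → ℝ} (h : ∀ r, 3 ≤ r → φ r ≤ 0) : Tempered d φ := by
  refine ⟨1, 1, 3, one_pos, one_pos, by norm_num, fun r hr => ?_⟩
  refine (h r hr).trans ?_
  have : 0 ≤ r ^ (-((d : ℝ) + 1) : ℝ) := Real.rpow_nonneg (by linarith) _
  linarith

theorem isPotential_of_bdd {φ : ℝ → ℝ} (hm : Measurable φ) {M : ℝ} (hM : ∀ r, |φ r| ≤ M) :
    IsPotential φ :=
  ⟨hm.comp measurable_subtype_coe, fun _ _ _ => ⟨M, fun r _ _ => hM r⟩⟩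

end Vale.Agent.P171.Dim
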