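import Vale.Agent.P171.Bdl.B1

/-!
# Pair potentials in every dimension

The definitions of `Vale.Agent.P171` (dimension three) with the dimension `d` as a parameter.
-/

set_option autoImplicit false

open MeasureTheory Filter Topology
open scoped ENNReal

namespace Vale.Agent.P171.Dim

/-- Euclidean `d`-space. -/
abbrev E (d : ℕ) : Type := EuclideanSpace ℝ (Fin d)

/-- Total energy of the configuration `x` of `N` particles for the radial pair potential `φ`: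
the sum of `φ (|x i - x j|)` over the pairs `i < j`. -/
noncomputable def energy {d : ℕ} (φ : ℝ → ℝ) {N : ℕ} (x : Fin N → E d) : ℝ :=
  ∑ i : Fin N, ∑ j ∈ Finset.Ioi i, φ ‖x i - x j‖

/-- `φ` is Borel measurable and locally bounded on the open half line `(0, ∞)`. -/
def IsPotential (φ : ℝ → ℝ) : Prop :=
  Measurable (fun r : Set.Ioi (0 : ℝ) => φ r) ∧
    ∀ a b : ℝ, 0 < a → ∃ M : ℝ, ∀ r : ℝ, a ≤ r → r ≤ b → |φ r| ≤ M

/-- Stability: the energy of every configuration of `N` distinct points is at least `-B N`. -/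
def Stable (d : ℕ) (φ : ℝ → ℝ) : Prop :=
  ∃ B : ℝ, ∀ (N : ℕ) (x : Fin N → E d), Function.Injective x → -(B * N) ≤ energy φ x

/-- Temperedness: `φ r ≤ C r^(-d-ε)` for all `r ≥ R₀`. -/
def Tempered (d : ℕ) (φ : ℝ → ℝ) : Prop :=
  ∃ C ε R₀ : ℝ, 0 < C ∧ 0 < ε ∧ 0 < R₀ ∧ ∀ r : ℝ, R₀ ≤ r → φ r ≤ C * r ^ (-((d : ℝ) + ε))

/-- The cube `[0, L]^d`. -/
def box (d : ℕ) (L : ℝ) : Set (E d) := {x | ∀ i : Fin d, 0 ≤ x i ∧ x i ≤ L}

/-- The canonical partition function `Z_{L,N}(β)`; for `N = 0` it equals `1`. -/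
noncomputable def Z (d : ℕ) (φ : ℝ → ℝ) (β L : ℝ) (N : ℕ) : ℝ≥0∞ :=
  (N.factorial : ℝ≥0∞)⁻¹ *
    ∫⁻ x in {x : Fin N → E d | ∀ i, x i ∈ box d L}, ENNReal.ofReal (Real.exp (-β * energy φ x))

/-- The grand canonical partition function `∑_N z^N Z_{L,N}(β)`. -/
noncomputable def Xi (d : ℕ) (φ : ℝ → ℝ) (β z L : ℝ) : ℝ≥0∞ :=
  ∑' N : ℕ, ENNReal.ofReal (z ^ N) * Z d φ β L N

/-- `p` is the thermodynamic limit `lim_{L → ∞} L^{-d} log Ξ_L(β, z)`, all the
`Ξ_L(β, z)` being finite. -/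
def HasPressure (d : ℕ) (φ : ℝ → ℝ) (β z p : ℝ) : Prop :=
  (∀ L : ℝ, 0 < L → Xi d φ β z L ≠ ⊤) ∧
    Tendsto (fun L : ℝ => Real.log (Xi d φ β z L).toReal / L ^ d) atTop (𝓝 p)

/-- Phase transition at the inverse temperature `β`: `z ↦ Π(β, z)` exists on `(0, ∞)` and is not
differentiable at some point. -/
def HasPhaseTransitionAt (d : ℕ) (φ : ℝ → ℝ) (β : ℝ) : Prop :=
  ∃ Pi : ℝ → ℝ, (∀ z : ℝ, 0 < z → HasPressure d φ β z (Pi z)) ∧
    ∃ z : ℝ, 0 < z ∧ ¬ DifferentiableAt ℝ Pi z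

/-- First-order transition at inverse temperature `β` with gas density at most `a` and liquid
density at least `b`: the function `z ↦ Π(β, z)` exists on `(0, ∞)` and at some point `z > 0` it
has a left derivative `dl` and a right derivative `dr`, with `z * dl ≤ a` and `b ≤ z * dr`
(the density is `z ∂Π/∂z`). -/
def DensityJump (d : ℕ) (φ : ℝ → ℝ) (β a b : ℝ) : Prop :=
  ∃ Pi : ℝ → ℝ, (∀ z : ℝ, 0 < z → HasPressure d φ β z (Pi z)) ∧
    ∃ z dl dr : ℝ, 0 < z ∧ HasDerivWithinAt Pi dl (Set.Iio z) z ∧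
      HasDerivWithinAt Pi dr (Set.Ioi z) z ∧ z * dl ≤ a ∧ b ≤ z * dr

end Vale.Agent.P171.Dim
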