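import Vale.Agent.P171.Dim.Defs

/-!
# Partition functions of a general pair function in dimension `d`
-/

set_option autoImplicit false

open MeasureTheory Filter Topology
open scoped ENNReal

namespace Vale.Agent.P171.Dim

variable {d : ℕ}

/-- Full double sum, diagonal included. -/
noncomputable def quad (W : (E d) → (E d) → ℝ) {ι : Type} [Fintype ι] (x : ι → (E d)) : ℝ :=
  ∑ i, ∑ j, W (x i) (x j)

/-- Gibbs weight `exp (ν N - quad / 2)`. -/
noncomputable def wt (W : (E d) → (E d) → ℝ) (ν : ℝ) {ι : Type} [Fintype ι] (x : ι → (E d)) : ℝ≥0∞ :=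
  ENNReal.ofReal (Real.exp (ν * Fintype.card ι - quad W x / 2))

/-- Grand partition function on `Λ` for the pair function `W` (diagonal included) and activity
exponent `ν`. -/
noncomputable def GX (Λ : Set (E d)) (W : (E d) → (E d) → ℝ) (ν : ℝ) : ℝ≥0∞ :=
  ∑' N : ℕ, (N.factorial : ℝ≥0∞)⁻¹ *
    ∫⁻ x in {x : Fin N → (E d) | ∀ i, x i ∈ Λ}, wt W ν x

/-- Block index of side `l` shifted by `θ` along the diagonal. -/
noncomputable def blk (l θ : ℕ) (x : (E d)) : Fin d → ℤ := fun c => (⌊x c⌋ + (θ : ℤ)) / (l : ℤ)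

open Classical in
/-- Same block indicator. -/
noncomputable def same (l θ : ℕ) (x y : (E d)) : ℝ := if blk l θ x = blk l θ y then 1 else 0

theorem abs_coord_le_norm (x : (E d)) (c : Fin d) : |x c| ≤ ‖x‖ := by
  have := EuclideanSpace.norm_eq x
  rw [this]
  apply Real.le_sqrt_of_sq_le
  rw [sq_abs]
  have h : x c ^ 2 = ‖x c‖ ^ 2 := by rw [Real.norm_eq_abs, sq_abs]
  rw [h]
  exact Finset.single_le_sum (f := fun i => ‖x i‖ ^ 2) (fun i _ => by positivity)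
    (Finset.mem_univ c)

theorem quad_same (l θ : ℕ) {ι : Type} [Fintype ι] (x : ι → (E d)) :
    quad (same l θ) x = ∑ i, ∑ j, if blk l θ (x i) = blk l θ (x j) then (1 : ℝ) else 0 := by
  unfold quad same
  congr 1

theorem quad_mono {W W' : (E d) → (E d) → ℝ} {ι : Type} [Fintype ι] (x : ι → (E d))
    (h : ∀ i j, W (x i) (x j) ≤ W' (x i) (x j)) : quad W x ≤ quad W' x :=
  Finset.sum_le_sum fun i _ => Finset.sum_le_sum fun j _ => h i j

theorem quad_nonneg {W : (E d) → (E d) → ℝ} {ι : Type} [Fintype ι] (x : ι → (E d))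
    (h : ∀ i j, 0 ≤ W (x i) (x j)) : 0 ≤ quad W x :=
  Finset.sum_nonneg fun i _ => Finset.sum_nonneg fun j _ => h i j

theorem same_nonneg (l θ : ℕ) (x y : (E d)) : 0 ≤ same l θ x y := by
  unfold same; split_ifs <;> norm_num

theorem quad_smul (c : ℝ) (W : (E d) → (E d) → ℝ) {ι : Type} [Fintype ι] (x : ι → (E d)) :
    quad (fun x y => c * W x y) x = c * quad W x := by
  unfold quad
  rw [Finset.mul_sum]
  refine Finset.sum_congr rfl fun i _ => ?_
  rw [Finset.mul_sum]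

theorem quad_add (W W' : (E d) → (E d) → ℝ) {ι : Type} [Fintype ι] (x : ι → (E d)) :
    quad (fun x y => W x y + W' x y) x = quad W x + quad W' x := by
  unfold quad
  simp_rw [Finset.sum_add_distrib]

theorem quad_sub (W W' : (E d) → (E d) → ℝ) {ι : Type} [Fintype ι] (x : ι → (E d)) :
    quad (fun x y => W x y - W' x y) x = quad W x - quad W' x := by
  unfold quad
  simp_rw [Finset.sum_sub_distrib]

theorem same_one_near {x y : E d} (h : blk 1 0 x = blk 1 0 y) : ‖x - y‖ < d + 1 := by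
  have h1 : ∀ c, |x c - y c| < 1 := by
    intro c
    have hc := congrFun h c
    simp only [blk, Nat.cast_zero, add_zero, Nat.cast_one, Int.ediv_one] at hc
    exact Int.abs_sub_lt_one_of_floor_eq_floor hc
  have h2 : ∀ c, ‖(x - y) c‖ ^ 2 ≤ 1 := by
    intro c
    rw [Real.norm_eq_abs]
    have : (x - y) c = x c - y c := rfl
    rw [this]
    have := h1 c
    have h0 := abs_nonneg (x c - y c)
    nlinarith
  have h3 : ∑ c, ‖(x - y) c‖ ^ 2 ≤ d := by
    calc ∑ c, ‖(x - y) c‖ ^ 2 ≤ ∑ _c : Fin d, (1 : ℝ) := Finset.sum_le_sum fun c _ => h2 c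
      _ = d := by simp
  have hd : (0 : ℝ) ≤ d := Nat.cast_nonneg d
  rw [EuclideanSpace.norm_eq, Real.sqrt_lt' (by positivity)]
  nlinarith

theorem exponent_same_le {L : ℝ} (hL : 0 < L) (ν : ℝ) {N : ℕ} (x : Fin N → (E d))
    (hx : ∀ i, x i ∈ box d L) :
    ν * N - quad (same 1 0) x / 2 ≤ ν ^ 2 / 2 * (L + 1) ^ d := by
  classical
  set κ : Fin N → (Fin d → ℤ) := fun i => blk 1 0 (x i) with hκ
  have h1 : quad (same 1 0) x = ∑ g ∈ Finset.univ.image κ, (cnt κ g : ℝ) ^ 2 := by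
    rw [quad_same, double_same κ]
  have h2 : (N : ℝ) = ∑ g ∈ Finset.univ.image κ, (cnt κ g : ℝ) := by
    have := sum_comp_cnt κ (fun _ => (1 : ℝ))
    simpa using this
  have h3 : ((Finset.univ.image κ).card : ℝ) ≤ (L + 1) ^ d := by
    have hsub : Finset.univ.image κ ⊆ Fintype.piFinset (fun _ : Fin d => Finset.Icc (0 : ℤ) ⌊L⌋) := by
      intro g hg
      obtain ⟨i, _, rfl⟩ := Finset.mem_image.mp hg
      rw [Fintype.mem_piFinset]
      intro c
      have hc := hx i c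
      simp only [hκ, blk, Nat.cast_zero, add_zero, Nat.cast_one, Int.ediv_one, Finset.mem_Icc]
      exact ⟨Int.floor_nonneg.mpr hc.1, Int.floor_le_floor hc.2⟩
    have hcard := Finset.card_le_card hsub
    rw [Fintype.card_piFinset] at hcard
    simp only [Int.card_Icc, Finset.prod_const, Finset.card_univ, Fintype.card_fin] at hcard
    have hfl : (((⌊L⌋ + 1 - 0).toNat : ℕ) : ℝ) ≤ L + 1 := by
      have h0 : 0 ≤ ⌊L⌋ := Int.floor_nonneg.mpr hL.le
      have h5 : (((⌊L⌋ + 1 - 0).toNat : ℕ) : ℤ) = ⌊L⌋ + 1 := by omega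
      have h6 : (((⌊L⌋ + 1 - 0).toNat : ℕ) : ℝ) = ((⌊L⌋ + 1 : ℤ) : ℝ) := by exact_mod_cast h5
      rw [h6]
      push_cast
      linarith [Int.floor_le L]
    calc ((Finset.univ.image κ).card : ℝ) ≤ (((⌊L⌋ + 1 - 0).toNat ^ d : ℕ) : ℝ) := by
          exact_mod_cast hcard
      _ = (((⌊L⌋ + 1 - 0).toNat : ℕ) : ℝ) ^ d := by push_cast; rfl
      _ ≤ (L + 1) ^ d := pow_le_pow_left₀ (by positivity) hfl d
  have h4 : ν * N - quad (same 1 0) x / 2 =
      ∑ g ∈ Finset.univ.image κ, (ν * (cnt κ g : ℝ) - (cnt κ g : ℝ) ^ 2 / 2) := by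
    rw [h1, Finset.sum_sub_distrib, ← Finset.mul_sum, ← Finset.sum_div]
    rw [← h2]
  rw [h4]
  calc ∑ g ∈ Finset.univ.image κ, (ν * (cnt κ g : ℝ) - (cnt κ g : ℝ) ^ 2 / 2)
      ≤ ∑ g ∈ Finset.univ.image κ, ν ^ 2 / 2 := by
        apply Finset.sum_le_sum
        intro g _
        nlinarith [sq_nonneg (ν - (cnt κ g : ℝ))]
    _ = (Finset.univ.image κ).card * (ν ^ 2 / 2) := by rw [Finset.sum_const, nsmul_eq_mul]
    _ ≤ (L + 1) ^ d * (ν ^ 2 / 2) := mul_le_mul_of_nonneg_right h3 (by positivity)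
    _ = ν ^ 2 / 2 * (L + 1) ^ d := by ring

theorem box_eq (L : ℝ) :
    box d L = (fun x : (E d) => (x : Fin d → ℝ)) ⁻¹' (Set.Icc (0 : Fin d → ℝ) (fun _ => L)) := by
  ext x
  simp only [box, Set.mem_ofPred_eq, Set.mem_preimage, Set.mem_Icc, Pi.le_def, Pi.zero_apply]
  exact forall_and

theorem measurableSet_box (L : ℝ) : MeasurableSet (box d L) := by
  rw [box_eq]
  exact (PiLp.volume_preserving_ofLp (Fin d)).measurable measurableSet_Icc

theorem volume_box {L : ℝ} (hL : 0 ≤ L) : volume (box d L) = ENNReal.ofReal (L ^ d) := by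
  rw [box_eq, (PiLp.volume_preserving_ofLp (Fin d)).measure_preimage
    measurableSet_Icc.nullMeasurableSet, Real.volume_Icc_pi]
  simp only [Pi.zero_apply, sub_zero, Finset.prod_const, Finset.card_univ, Fintype.card_fin]
  rw [ENNReal.ofReal_pow hL]

theorem quad_comp_equiv {ι κ : Type} [Fintype ι] [Fintype κ]
    (e : κ ≃ ι) (W : (E d) → (E d) → ℝ) (x : ι → (E d)) :
    quad W (fun k => x (e k)) = quad W x := by
  unfold quad
  rw [← e.sum_comp]
  refine Finset.sum_congr rfl fun i _ => ?_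
  rw [← e.sum_comp]

theorem wt_comp_equiv {ι κ : Type} [Fintype ι] [Fintype κ]
    (e : κ ≃ ι) (W : (E d) → (E d) → ℝ) (ν : ℝ) (x : ι → (E d)) :
    wt W ν (fun k => x (e k)) = wt W ν x := by
  unfold wt
  rw [quad_comp_equiv, Fintype.card_congr e]

theorem measurable_quad {ι : Type} [Fintype ι] {W : (E d) → (E d) → ℝ}
    (hW : Measurable (Function.uncurry W)) : Measurable (fun x : ι → (E d) => quad W x) := by
  unfold quad
  refine Finset.measurable_sum _ fun i _ => Finset.measurable_sum _ fun j _ => ?_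
  have hm : Measurable (fun x : ι → (E d) => (x i, x j)) :=
    (measurable_pi_apply i).prodMk (measurable_pi_apply j)
  exact hW.comp hm

theorem measurable_wt {ι : Type} [Fintype ι] {W : (E d) → (E d) → ℝ}
    (hW : Measurable (Function.uncurry W)) (ν : ℝ) :
    Measurable (fun x : ι → (E d) => wt W ν x) := by
  unfold wt
  exact ENNReal.measurable_ofReal.comp (Real.measurable_exp.comp
    (((measurable_quad hW).div_const 2).const_sub _))

/-- Splitting of the double sum along a subset of indices. -/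
theorem quad_split {ι : Type} [Fintype ι] (p : ι → Prop) [DecidablePred p]
    (W : (E d) → (E d) → ℝ) (x : ι → (E d)) :
    quad W x = quad W (fun i : {i // p i} => x i) + quad W (fun i : {i // ¬ p i} => x i)
      + ∑ i : {i // p i}, ∑ j : {j // ¬ p j}, (W (x i) (x j) + W (x j) (x i)) := by
  unfold quad
  rw [← Fintype.sum_subtype_add_sum_subtype p]
  have h1 : ∀ i : ι, ∑ j, W (x i) (x j) = ∑ j : {j // p j}, W (x i) (x j)
      + ∑ j : {j // ¬ p j}, W (x i) (x j) := fun i => (Fintype.sum_subtype_add_sum_subtype p _).symm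
  simp only [h1, Finset.sum_add_distrib]
  rw [Finset.sum_comm (s := (Finset.univ : Finset {j // ¬ p j}))
    (t := (Finset.univ : Finset {j // p j}))]
  ring

theorem wt_split_le {ι : Type} [Fintype ι] (p : ι → Prop) [DecidablePred p]
    (W : (E d) → (E d) → ℝ) (ν : ℝ) (x : ι → (E d))
    (h : ∀ i j, p i → ¬ p j → 0 ≤ W (x i) (x j) + W (x j) (x i)) :
    wt W ν x ≤ wt W ν (fun i : {i // p i} => x i) * wt W ν (fun i : {i // ¬ p i} => x i) := by
  unfold wt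
  rw [← ENNReal.ofReal_mul (Real.exp_pos _).le, ← Real.exp_add]
  apply ENNReal.ofReal_le_ofReal
  apply Real.exp_le_exp.2
  have h1 : (Fintype.card ι : ℝ) = (Fintype.card {i // p i} : ℝ) + (Fintype.card {i // ¬ p i} : ℝ) := by
    rw [← Nat.cast_add, Fintype.card_subtype_compl, Nat.add_sub_cancel' (Fintype.card_subtype_le p)]
  have h2 := quad_split p W x
  have h3 : 0 ≤ ∑ i : {i // p i}, ∑ j : {j // ¬ p j}, (W (x i) (x j) + W (x j) (x i)) :=
    Finset.sum_nonneg fun i _ => Finset.sum_nonneg fun j _ => h _ _ i.2 j.2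
  rw [h1]
  linarith

theorem wt_split_ge {ι : Type} [Fintype ι] (p : ι → Prop) [DecidablePred p]
    (W : (E d) → (E d) → ℝ) (ν : ℝ) (x : ι → (E d))
    (h : ∀ i j, p i → ¬ p j → W (x i) (x j) + W (x j) (x i) ≤ 0) :
    wt W ν (fun i : {i // p i} => x i) * wt W ν (fun i : {i // ¬ p i} => x i) ≤ wt W ν x := by
  unfold wt
  rw [← ENNReal.ofReal_mul (Real.exp_pos _).le, ← Real.exp_add]
  apply ENNReal.ofReal_le_ofReal
  apply Real.exp_le_exp.2
  have h1 : (Fintype.card ι : ℝ) = (Fintype.card {i // p i} : ℝ) + (Fintype.card {i // ¬ p i} : ℝ) := by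
    rw [← Nat.cast_add, Fintype.card_subtype_compl, Nat.add_sub_cancel' (Fintype.card_subtype_le p)]
  have h2 := quad_split p W x
  have h3 : ∑ i : {i // p i}, ∑ j : {j // ¬ p j}, (W (x i) (x j) + W (x j) (x i)) ≤ 0 :=
    Finset.sum_nonpos fun i _ => Finset.sum_nonpos fun j _ => h _ _ i.2 j.2
  rw [h1]
  linarith

/-- Unnormalised canonical partition function with labels `ι`. -/
noncomputable def Zn (ι : Type) [Fintype ι] (Λ : Set (E d)) (W : (E d) → (E d) → ℝ) (ν : ℝ) : ℝ≥0∞ :=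
  ∫⁻ x in {x : ι → (E d) | ∀ i, x i ∈ Λ}, wt W ν x

theorem GX_eq_tsum_Zn (Λ : Set (E d)) (W : (E d) → (E d) → ℝ) (ν : ℝ) :
    GX Λ W ν = ∑' N : ℕ, (N.factorial : ℝ≥0∞)⁻¹ * Zn (Fin N) Λ W ν := rfl

theorem Zn_congr {ι κ : Type} [Fintype ι] [Fintype κ]
    (e : κ ≃ ι) (Λ : Set (E d)) (W : (E d) → (E d) → ℝ) (ν : ℝ) :
    Zn κ Λ W ν = Zn ι Λ W ν := by
  unfold Zn
  have h := (volume_measurePreserving_piCongrLeft (fun _ : ι => (E d)) e)
  have h2 := h.setLIntegral_comp_preimage_emb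
    (MeasurableEquiv.piCongrLeft (fun _ : ι => (E d)) e).measurableEmbedding
    (fun x => wt W ν x) {x : ι → (E d) | ∀ i, x i ∈ Λ}
  rw [← h2]
  have hx : ∀ (x : κ → (E d)) (k : κ),
      (MeasurableEquiv.piCongrLeft (fun _ : ι => (E d)) e) x (e k) = x k := by
    intro x k
    simp [MeasurableEquiv.coe_piCongrLeft]
  have hset : {x : κ → (E d) | ∀ i, x i ∈ Λ}
      = (MeasurableEquiv.piCongrLeft (fun _ : ι => (E d)) e) ⁻¹' {x : ι → (E d) | ∀ i, x i ∈ Λ} := by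
    ext x
    simp only [Set.mem_ofPred_eq, Set.mem_preimage]
    constructor
    · intro h i
      obtain ⟨k, rfl⟩ := e.surjective i
      rw [hx]
      exact h k
    · intro h k
      rw [← hx x k]
      exact h (e k)
  rw [hset]
  refine lintegral_congr fun x => ?_
  rw [← wt_comp_equiv e]
  congr 1
  funext k
  exact (hx x k).symm

theorem Zn_card {ι κ : Type} [Fintype ι] [Fintype κ]
    (h : Fintype.card κ = Fintype.card ι) (Λ : Set (E d)) (W : (E d) → (E d) → ℝ) (ν : ℝ) :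
    Zn κ Λ W ν = Zn ι Λ W ν :=
  Zn_congr (Fintype.equivOfCardEq h) Λ W ν

theorem measurableSet_all {ι : Type} [Fintype ι] {Λ : Set (E d)} (h : MeasurableSet Λ) :
    MeasurableSet {x : ι → (E d) | ∀ i, x i ∈ Λ} := by
  have : {x : ι → (E d) | ∀ i, x i ∈ Λ} = ⋂ i, {x | x i ∈ Λ} := by ext x; simp
  rw [this]
  exact MeasurableSet.iInter fun i => (measurable_pi_apply i) h

/-- Product structure of the integral over `A` for the labels in `p` and `B` for the others. -/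
theorem setLIntegral_split {ι : Type} [Fintype ι] (p : ι → Prop) [DecidablePred p]
    {A B : Set (E d)} (hA : MeasurableSet A) (hB : MeasurableSet B)
    {f : ({i // p i} → (E d)) → ℝ≥0∞} {g : ({i // ¬ p i} → (E d)) → ℝ≥0∞}
    (hf : Measurable f) (hg : Measurable g) :
    ∫⁻ x in {x : ι → (E d) | (∀ i : {i // p i}, x i ∈ A) ∧ ∀ i : {i // ¬ p i}, x i ∈ B},
        f (fun i => x i) * g (fun i => x i)
      = (∫⁻ y in {y : {i // p i} → (E d) | ∀ i, y i ∈ A}, f y) *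
        (∫⁻ z in {z : {i // ¬ p i} → (E d) | ∀ i, z i ∈ B}, g z) := by
  have hmS : MeasurableSet {y : {i // p i} → (E d) | ∀ i, y i ∈ A} := measurableSet_all hA
  have hmC : MeasurableSet {z : {i // ¬ p i} → (E d) | ∀ i, z i ∈ B} := measurableSet_all hB
  have he := volume_preserving_piEquivPiSubtypeProd (fun _ : ι => (E d)) p
  have h1 := he.setLIntegral_comp_preimage_emb (MeasurableEquiv.measurableEmbedding _)
    (fun q : ({i // p i} → (E d)) × ({i // ¬ p i} → (E d)) => f q.1 * g q.2)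
    ({y : {i // p i} → (E d) | ∀ i, y i ∈ A} ×ˢ {z : {i // ¬ p i} → (E d) | ∀ i, z i ∈ B})
  have h2 : ∫⁻ q in ({y : {i // p i} → (E d) | ∀ i, y i ∈ A} ×ˢ
      {z : {i // ¬ p i} → (E d) | ∀ i, z i ∈ B}), f q.1 * g q.2
      = (∫⁻ y in {y : {i // p i} → (E d) | ∀ i, y i ∈ A}, f y) *
        (∫⁻ z in {z : {i // ¬ p i} → (E d) | ∀ i, z i ∈ B}, g z) := by
    rw [Measure.volume_eq_prod, ← Measure.prod_restrict]
    exact lintegral_prod_mul hf.aemeasurable hg.aemeasurable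
  rw [← h2, ← h1]
  rfl

/-- Zone set for the label set `S`. -/
def zone {ι : Type} (Λ₁ Λ₂ : Set (E d)) (p : ι → Prop) : Set (ι → (E d)) :=
  {x : ι → (E d) | (∀ i : {i // p i}, x i ∈ Λ₁) ∧ ∀ i : {i // ¬ p i}, x i ∈ Λ₂}

theorem measurableSet_zone {ι : Type} [Fintype ι] {Λ₁ Λ₂ : Set (E d)} (h₁ : MeasurableSet Λ₁)
    (h₂ : MeasurableSet Λ₂) (p : ι → Prop) : MeasurableSet (zone Λ₁ Λ₂ p) := by
  classical
  unfold zone
  have e1 : {x : ι → (E d) | (∀ i : {i // p i}, x i ∈ Λ₁) ∧ ∀ i : {i // ¬ p i}, x i ∈ Λ₂}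
      = (⋂ i : {i // p i}, {x : ι → (E d) | x i ∈ Λ₁}) ∩ (⋂ i : {i // ¬ p i}, {x : ι → (E d) | x i ∈ Λ₂}) := by
    ext x
    simp
  rw [e1]
  exact (MeasurableSet.iInter fun i : {i // p i} => (measurable_pi_apply i.1) h₁).inter
    (MeasurableSet.iInter fun i : {i // ¬ p i} => (measurable_pi_apply i.1) h₂)

theorem lintegral_union_eq_sum {ι : Type} [Fintype ι] [DecidableEq ι] {Λ₁ Λ₂ : Set (E d)}
    (h₁ : MeasurableSet Λ₁) (h₂ : MeasurableSet Λ₂) (hd : Disjoint Λ₁ Λ₂)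
    (f : (ι → (E d)) → ℝ≥0∞) :
    ∫⁻ x in {x : ι → (E d) | ∀ i, x i ∈ Λ₁ ∪ Λ₂}, f x
      = ∑ S : Finset ι, ∫⁻ x in zone Λ₁ Λ₂ (fun i => i ∈ S), f x := by
  classical
  have hset : {x : ι → (E d) | ∀ i, x i ∈ Λ₁ ∪ Λ₂}
      = ⋃ S ∈ (Finset.univ : Finset (Finset ι)), zone Λ₁ Λ₂ (fun i => i ∈ S) := by
    ext x
    simp only [Set.mem_iUnion, Finset.mem_univ, exists_true_left]
    constructor
    · intro h
      refine ⟨Finset.univ.filter fun i => x i ∈ Λ₁, ?_, ?_⟩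
      · rintro ⟨i, hi⟩
        simpa using hi
      · rintro ⟨i, hi⟩
        have h3 : x i ∉ Λ₁ := by simpa using hi
        exact (h i).resolve_left h3
    · rintro ⟨S, hS1, hS2⟩ i
      by_cases hi : i ∈ S
      · exact Or.inl (hS1 ⟨i, hi⟩)
      · exact Or.inr (hS2 ⟨i, hi⟩)
  rw [hset, lintegral_biUnion_finset]
  · intro S _ T _ hST
    rw [Function.onFun, Set.disjoint_left]
    rintro x ⟨hS1, hS2⟩ ⟨hT1, hT2⟩
    apply hST
    ext i
    constructor
    · intro hi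
      by_contra hiT
      exact Set.disjoint_left.1 hd (hS1 ⟨i, hi⟩) (hT2 ⟨i, hiT⟩)
    · intro hi
      by_contra hiS
      exact Set.disjoint_left.1 hd (hT1 ⟨i, hi⟩) (hS2 ⟨i, hiS⟩)
  · intro S _
    exact measurableSet_zone h₁ h₂ _

theorem zone_le {ι : Type} [Fintype ι] {Λ₁ Λ₂ : Set (E d)}
    (h₁ : MeasurableSet Λ₁) (h₂ : MeasurableSet Λ₂)
    {W : (E d) → (E d) → ℝ} (hW : Measurable (Function.uncurry W)) (ν : ℝ)
    (hpos : ∀ x ∈ Λ₁, ∀ y ∈ Λ₂, 0 ≤ W x y + W y x) (p : ι → Prop) [DecidablePred p] :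
    ∫⁻ x in zone Λ₁ Λ₂ p, wt W ν x ≤ Zn {i // p i} Λ₁ W ν * Zn {i // ¬ p i} Λ₂ W ν := by
  unfold Zn
  rw [← setLIntegral_split p h₁ h₂ (measurable_wt hW ν) (measurable_wt hW ν)]
  refine setLIntegral_mono' (measurableSet_zone h₁ h₂ _) fun x hx => ?_
  exact wt_split_le p W ν x fun i j hi hj => hpos _ (hx.1 ⟨i, hi⟩) _ (hx.2 ⟨j, hj⟩)

theorem zone_ge {ι : Type} [Fintype ι] {Λ₁ Λ₂ : Set (E d)}
    (h₁ : MeasurableSet Λ₁) (h₂ : MeasurableSet Λ₂)
    {W : (E d) → (E d) → ℝ} (hW : Measurable (Function.uncurry W)) (ν : ℝ)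
    (hneg : ∀ x ∈ Λ₁, ∀ y ∈ Λ₂, W x y + W y x ≤ 0) (p : ι → Prop) [DecidablePred p] :
    Zn {i // p i} Λ₁ W ν * Zn {i // ¬ p i} Λ₂ W ν ≤ ∫⁻ x in zone Λ₁ Λ₂ p, wt W ν x := by
  unfold Zn
  rw [← setLIntegral_split p h₁ h₂ (measurable_wt hW ν) (measurable_wt hW ν)]
  refine setLIntegral_mono' (measurableSet_zone h₁ h₂ _) fun x hx => ?_
  exact wt_split_ge p W ν x fun i j hi hj => hneg _ (hx.1 ⟨i, hi⟩) _ (hx.2 ⟨j, hj⟩)

theorem Zn_mem {ι : Type} (S : Finset ι) (inst : Fintype {i // i ∈ S})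
    (Λ : Set (E d)) (W : (E d) → (E d) → ℝ) (ν : ℝ) :
    @Zn d {i // i ∈ S} inst Λ W ν = Zn (Fin S.card) Λ W ν := by
  refine @Zn_card _ _ _ _ inst ?_ Λ W ν
  rw [Fintype.card_fin]
  exact Fintype.card_of_subtype S fun _ => Iff.rfl

theorem Zn_not_mem {ι : Type} [Fintype ι] [DecidableEq ι] (S : Finset ι)
    (inst : Fintype {i // ¬ i ∈ S}) (Λ : Set (E d)) (W : (E d) → (E d) → ℝ) (ν : ℝ) :
    @Zn d {i // ¬ i ∈ S} inst Λ W ν = Zn (Fin (Fintype.card ι - S.card)) Λ W ν := by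
  refine @Zn_card _ _ _ _ inst ?_ Λ W ν
  rw [Fintype.card_fin, Fintype.card_of_subtype Sᶜ fun _ => Finset.mem_compl, Finset.card_compl]

theorem Zn_union_le {ι : Type} [Fintype ι] [DecidableEq ι] {Λ₁ Λ₂ : Set (E d)}
    (h₁ : MeasurableSet Λ₁) (h₂ : MeasurableSet Λ₂) (hd : Disjoint Λ₁ Λ₂)
    {W : (E d) → (E d) → ℝ} (hW : Measurable (Function.uncurry W)) (ν : ℝ)
    (hpos : ∀ x ∈ Λ₁, ∀ y ∈ Λ₂, 0 ≤ W x y + W y x) :
    Zn ι (Λ₁ ∪ Λ₂) W ν ≤ ∑ S : Finset ι, Zn (Fin S.card) Λ₁ W ν *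
      Zn (Fin (Fintype.card ι - S.card)) Λ₂ W ν := by
  have h0 : Zn ι (Λ₁ ∪ Λ₂) W ν = _ := lintegral_union_eq_sum h₁ h₂ hd _
  rw [h0]
  refine Finset.sum_le_sum fun S _ => ?_
  refine (zone_le h₁ h₂ hW ν hpos (fun i => i ∈ S)).trans (le_of_eq ?_)
  exact congrArg₂ _ (Zn_mem S _ Λ₁ W ν) (Zn_not_mem S _ Λ₂ W ν)

theorem Zn_union_ge {ι : Type} [Fintype ι] [DecidableEq ι] {Λ₁ Λ₂ : Set (E d)}
    (h₁ : MeasurableSet Λ₁) (h₂ : MeasurableSet Λ₂) (hd : Disjoint Λ₁ Λ₂)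
    {W : (E d) → (E d) → ℝ} (hW : Measurable (Function.uncurry W)) (ν : ℝ)
    (hneg : ∀ x ∈ Λ₁, ∀ y ∈ Λ₂, W x y + W y x ≤ 0) :
    ∑ S : Finset ι, Zn (Fin S.card) Λ₁ W ν *
      Zn (Fin (Fintype.card ι - S.card)) Λ₂ W ν ≤ Zn ι (Λ₁ ∪ Λ₂) W ν := by
  have h0 : Zn ι (Λ₁ ∪ Λ₂) W ν = _ := lintegral_union_eq_sum h₁ h₂ hd _
  rw [h0]
  refine Finset.sum_le_sum fun S _ => ?_
  refine le_trans (le_of_eq ?_) (zone_ge h₁ h₂ hW ν hneg (fun i => i ∈ S))
  exact (congrArg₂ _ (Zn_mem S _ Λ₁ W ν) (Zn_not_mem S _ Λ₂ W ν)).symm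

theorem GX_union_le' {Λ₁ Λ₂ : Set (E d)} (h₁ : MeasurableSet Λ₁) (h₂ : MeasurableSet Λ₂)
    (hd : Disjoint Λ₁ Λ₂) {W : (E d) → (E d) → ℝ} (hW : Measurable (Function.uncurry W)) (ν : ℝ)
    (hpos : ∀ x ∈ Λ₁, ∀ y ∈ Λ₂, 0 ≤ W x y + W y x) :
    GX (Λ₁ ∪ Λ₂) W ν ≤ GX Λ₁ W ν * GX Λ₂ W ν := by
  rw [GX_eq_tsum_Zn Λ₁, GX_eq_tsum_Zn Λ₂, GX_eq_tsum_Zn (Λ₁ ∪ Λ₂), tsum_mul_tsum_antidiagonal]
  refine ENNReal.tsum_le_tsum fun N => ?_
  rw [← inv_factorial_mul_sum (fun k => Zn (Fin k) Λ₁ W ν) (fun k => Zn (Fin k) Λ₂ W ν)]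
  gcongr
  have := Zn_union_le (ι := Fin N) h₁ h₂ hd hW ν hpos
  rw [Fintype.card_fin] at this
  exact this

theorem GX_le_union' {Λ₁ Λ₂ : Set (E d)} (h₁ : MeasurableSet Λ₁) (h₂ : MeasurableSet Λ₂)
    (hd : Disjoint Λ₁ Λ₂) {W : (E d) → (E d) → ℝ} (hW : Measurable (Function.uncurry W)) (ν : ℝ)
    (hneg : ∀ x ∈ Λ₁, ∀ y ∈ Λ₂, W x y + W y x ≤ 0) :
    GX Λ₁ W ν * GX Λ₂ W ν ≤ GX (Λ₁ ∪ Λ₂) W ν := by
  rw [GX_eq_tsum_Zn Λ₁, GX_eq_tsum_Zn Λ₂, GX_eq_tsum_Zn (Λ₁ ∪ Λ₂), tsum_mul_tsum_antidiagonal]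
  refine ENNReal.tsum_le_tsum fun N => ?_
  rw [← inv_factorial_mul_sum (fun k => Zn (Fin k) Λ₁ W ν) (fun k => Zn (Fin k) Λ₂ W ν)]
  gcongr
  have := Zn_union_ge (ι := Fin N) h₁ h₂ hd hW ν hneg
  rw [Fintype.card_fin] at this
  exact this

theorem GX_mono_set {Λ Λ' : Set (E d)} (h : Λ ⊆ Λ') (W : (E d) → (E d) → ℝ) (ν : ℝ) :
    GX Λ W ν ≤ GX Λ' W ν := by
  unfold GX
  refine ENNReal.tsum_le_tsum fun N => mul_le_mul' le_rfl ?_
  exact lintegral_mono_set fun x hx i => h (hx i)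

theorem one_le_GX (Λ : Set (E d)) (W : (E d) → (E d) → ℝ) (ν : ℝ) : 1 ≤ GX Λ W ν := by
  unfold GX
  refine le_trans (le_of_eq ?_) (ENNReal.le_tsum 0)
  have h1 : {x : Fin 0 → (E d) | ∀ i, x i ∈ Λ} = Set.univ := by
    ext x
    simp
  have h2 : ∀ x : Fin 0 → (E d), wt W ν x = 1 := by
    intro x
    unfold wt quad
    simp
  simp only [h1, h2]
  simp [volume_pi]

/-- comparison of exponents, configuration by configuration -/
theorem GX_mono {Λ : Set (E d)} (hΛ : MeasurableSet Λ) {W W' : (E d) → (E d) → ℝ} {ν ν' : ℝ}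
    (h : ∀ (N : ℕ) (x : Fin N → (E d)), (∀ i, x i ∈ Λ) →
      ν * N - quad W x / 2 ≤ ν' * N - quad W' x / 2) :
    GX Λ W ν ≤ GX Λ W' ν' := by
  unfold GX
  refine ENNReal.tsum_le_tsum fun N => mul_le_mul' le_rfl ?_
  refine setLIntegral_mono' (measurableSet_all hΛ) fun x hx => ?_
  unfold wt
  apply ENNReal.ofReal_le_ofReal
  apply Real.exp_le_exp.2
  simpa using h N x hx

theorem volume_all {N : ℕ} (Λ : Set (E d)) :
    volume {x : Fin N → (E d) | ∀ i, x i ∈ Λ} = volume Λ ^ N := by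
  have : {x : Fin N → (E d) | ∀ i, x i ∈ Λ} = Set.univ.pi fun _ => Λ := by
    ext x
    simp
  rw [this, volume_pi_pi]
  simp

/-- general upper bound: exponent `≤ C` everywhere gives `GX ≤ exp (C + vol Λ)` -/
theorem GX_le_exp {Λ : Set (E d)} (hΛ : MeasurableSet Λ) {W : (E d) → (E d) → ℝ} {ν C V : ℝ}
    (hV0 : 0 ≤ V) (hV : volume Λ ≤ ENNReal.ofReal V)
    (h : ∀ (N : ℕ) (x : Fin N → (E d)), (∀ i, x i ∈ Λ) → ν * N - quad W x / 2 ≤ C) :
    GX Λ W ν ≤ ENNReal.ofReal (Real.exp (C + V)) := by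
  rw [Real.exp_add, ENNReal.ofReal_mul (Real.exp_pos _).le, ← tsum_inv_factorial_mul_pow hV0,
    ← ENNReal.tsum_mul_left]
  unfold GX
  refine ENNReal.tsum_le_tsum fun N => ?_
  calc (N.factorial : ℝ≥0∞)⁻¹ * ∫⁻ x in {x : Fin N → (E d) | ∀ i, x i ∈ Λ}, wt W ν x
      ≤ (N.factorial : ℝ≥0∞)⁻¹ * ∫⁻ x in {x : Fin N → (E d) | ∀ i, x i ∈ Λ},
          ENNReal.ofReal (Real.exp C) := by
        refine mul_le_mul' le_rfl ?_
        refine setLIntegral_mono' (measurableSet_all hΛ) fun x hx => ?_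
        unfold wt
        apply ENNReal.ofReal_le_ofReal
        apply Real.exp_le_exp.2
        simpa using h N x hx
    _ = (N.factorial : ℝ≥0∞)⁻¹ * (ENNReal.ofReal (Real.exp C) * volume Λ ^ N) := by
        rw [setLIntegral_const, volume_all]
    _ ≤ (N.factorial : ℝ≥0∞)⁻¹ * (ENNReal.ofReal (Real.exp C) * ENNReal.ofReal V ^ N) := by
        gcongr
    _ = _ := by ring

theorem GX_union_le {Λ₁ Λ₂ : Set (E d)} (h₁ : MeasurableSet Λ₁) (h₂ : MeasurableSet Λ₂)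
    (hd : Disjoint Λ₁ Λ₂) {W : (E d) → (E d) → ℝ} (hW : Measurable (Function.uncurry W))
    (hs : ∀ x y, W x y = W y x) (ν : ℝ)
    (hpos : ∀ x ∈ Λ₁, ∀ y ∈ Λ₂, 0 ≤ W x y) :
    GX (Λ₁ ∪ Λ₂) W ν ≤ GX Λ₁ W ν * GX Λ₂ W ν :=
  GX_union_le' h₁ h₂ hd hW ν fun x hx y hy => by
    rw [hs y x]; have := hpos x hx y hy; linarith

theorem GX_le_union {Λ₁ Λ₂ : Set (E d)} (h₁ : MeasurableSet Λ₁) (h₂ : MeasurableSet Λ₂)
    (hd : Disjoint Λ₁ Λ₂) {W : (E d) → (E d) → ℝ} (hW : Measurable (Function.uncurry W))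
    (hs : ∀ x y, W x y = W y x) (ν : ℝ)
    (hneg : ∀ x ∈ Λ₁, ∀ y ∈ Λ₂, W x y ≤ 0) :
    GX Λ₁ W ν * GX Λ₂ W ν ≤ GX (Λ₁ ∪ Λ₂) W ν :=
  GX_le_union' h₁ h₂ hd hW ν fun x hx y hy => by
    rw [hs y x]; have := hneg x hx y hy; linarith

theorem GX_empty (W : (E d) → (E d) → ℝ) (ν : ℝ) : GX ∅ W ν = 1 := by
  unfold GX
  rw [tsum_eq_single 0]
  · have h1 : {x : Fin 0 → (E d) | ∀ i, x i ∈ (∅ : Set (E d))} = Set.univ := by
      ext x
      simp
    have h2 : ∀ x : Fin 0 → (E d), wt W ν x = 1 := by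
      intro x
      unfold wt quad
      simp
    simp only [h1, h2]
    simp [volume_pi]
  · intro N hN
    have h1 : {x : Fin N → (E d) | ∀ i, x i ∈ (∅ : Set (E d))} = ∅ := by
      ext x
      simp only [Set.mem_empty_iff_false, Set.mem_ofPred_eq, iff_false, not_forall]
      exact ⟨⟨0, Nat.pos_of_ne_zero hN⟩, fun h => h⟩
    rw [h1, Measure.restrict_empty, lintegral_zero_measure, mul_zero]

theorem GX_biUnion_le {κ : Type} (s : Finset κ) {Λ : κ → Set (E d)}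
    (hm : ∀ i ∈ s, MeasurableSet (Λ i))
    (hd : ∀ i ∈ s, ∀ j ∈ s, i ≠ j → Disjoint (Λ i) (Λ j))
    {W : (E d) → (E d) → ℝ} (hW : Measurable (Function.uncurry W))
    (hs : ∀ x y, W x y = W y x) (ν : ℝ)
    (hpos : ∀ i ∈ s, ∀ j ∈ s, i ≠ j → ∀ x ∈ Λ i, ∀ y ∈ Λ j, 0 ≤ W x y) :
    GX (⋃ i ∈ s, Λ i) W ν ≤ ∏ i ∈ s, GX (Λ i) W ν := by
  classical
  induction s using Finset.induction with
  | empty => simp [GX_empty]
  | insert a s ha ih =>
    rw [Finset.prod_insert ha, Finset.set_biUnion_insert]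
    have hne : ∀ j ∈ s, a ≠ j := fun j hj h => ha (h ▸ hj)
    refine (GX_union_le (hm a (Finset.mem_insert_self a s))
      (s.measurableSet_biUnion fun i hi => hm i (Finset.mem_insert_of_mem hi)) ?_ hW hs ν ?_).trans ?_
    · rw [Set.disjoint_iUnion₂_right]
      intro j hj
      exact hd a (Finset.mem_insert_self a s) j (Finset.mem_insert_of_mem hj) (hne j hj)
    · intro x hx y hy
      rw [Set.mem_iUnion₂] at hy
      obtain ⟨j, hj, hy⟩ := hy
      exact hpos a (Finset.mem_insert_self a s) j (Finset.mem_insert_of_mem hj) (hne j hj) x hx y hy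
    · gcongr
      exact ih (fun i hi => hm i (Finset.mem_insert_of_mem hi))
        (fun i hi j hj => hd i (Finset.mem_insert_of_mem hi) j (Finset.mem_insert_of_mem hj))
        (fun i hi j hj => hpos i (Finset.mem_insert_of_mem hi) j (Finset.mem_insert_of_mem hj))

theorem GX_le_biUnion {κ : Type} (s : Finset κ) {Λ : κ → Set (E d)}
    (hm : ∀ i ∈ s, MeasurableSet (Λ i))
    (hd : ∀ i ∈ s, ∀ j ∈ s, i ≠ j → Disjoint (Λ i) (Λ j))
    {W : (E d) → (E d) → ℝ} (hW : Measurable (Function.uncurry W))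
    (hs : ∀ x y, W x y = W y x) (ν : ℝ)
    (hneg : ∀ i ∈ s, ∀ j ∈ s, i ≠ j → ∀ x ∈ Λ i, ∀ y ∈ Λ j, W x y ≤ 0) :
    ∏ i ∈ s, GX (Λ i) W ν ≤ GX (⋃ i ∈ s, Λ i) W ν := by
  classical
  induction s using Finset.induction with
  | empty => simp [GX_empty]
  | insert a s ha ih =>
    rw [Finset.prod_insert ha, Finset.set_biUnion_insert]
    have hne : ∀ j ∈ s, a ≠ j := fun j hj h => ha (h ▸ hj)
    refine le_trans ?_ (GX_le_union (hm a (Finset.mem_insert_self a s))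
      (s.measurableSet_biUnion fun i hi => hm i (Finset.mem_insert_of_mem hi)) ?_ hW hs ν ?_)
    · gcongr
      exact ih (fun i hi => hm i (Finset.mem_insert_of_mem hi))
        (fun i hi j hj => hd i (Finset.mem_insert_of_mem hi) j (Finset.mem_insert_of_mem hj))
        (fun i hi j hj => hneg i (Finset.mem_insert_of_mem hi) j (Finset.mem_insert_of_mem hj))
    · rw [Set.disjoint_iUnion₂_right]
      intro j hj
      exact hd a (Finset.mem_insert_self a s) j (Finset.mem_insert_of_mem hj) (hne j hj)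
    · intro x hx y hy
      rw [Set.mem_iUnion₂] at hy
      obtain ⟨j, hj, hy⟩ := hy
      exact hneg a (Finset.mem_insert_self a s) j (Finset.mem_insert_of_mem hj) (hne j hj) x hx y hy

theorem GX_translate {Λ : Set (E d)} (v : (E d)) {W : (E d) → (E d) → ℝ}
    (hW : ∀ x y, W (x + v) (y + v) = W x y) (ν : ℝ) :
    GX ((fun x => x + v) '' Λ) W ν = GX Λ W ν := by
  unfold GX
  refine tsum_congr fun N => ?_
  congr 1
  have hmp : MeasurePreserving (fun x : Fin N → (E d) => x + fun _ => v) volume volume :=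
    measurePreserving_add_right volume _
  have hemb : MeasurableEmbedding (fun x : Fin N → (E d) => x + fun _ => v) :=
    (MeasurableEquiv.addRight (fun _ : Fin N => v)).measurableEmbedding
  have h1 := hmp.setLIntegral_comp_preimage_emb hemb (fun x => wt W ν x)
    {x : Fin N → (E d) | ∀ i, x i ∈ (fun x => x + v) '' Λ}
  rw [← h1]
  have hset : (fun x : Fin N → (E d) => x + fun _ => v) ⁻¹'
      {x : Fin N → (E d) | ∀ i, x i ∈ (fun x => x + v) '' Λ} = {x : Fin N → (E d) | ∀ i, x i ∈ Λ} := by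
    ext x
    simp
  rw [hset]
  refine lintegral_congr fun x => ?_
  unfold wt quad
  simp [hW]

/-- Hoelder: log-convexity in `(W, ν)` -/
theorem GX_holder {Λ : Set (E d)} (hΛ : MeasurableSet Λ) {W W' : (E d) → (E d) → ℝ}
    (hW : Measurable (Function.uncurry W)) (hW' : Measurable (Function.uncurry W'))
    (ν ν' : ℝ) {s : ℝ} (h0 : 0 ≤ s) (h1 : s ≤ 1) :
    GX Λ (fun x y => (1 - s) * W x y + s * W' x y) ((1 - s) * ν + s * ν') ≤
      (GX Λ W ν) ^ (1 - s) * (GX Λ W' ν') ^ s := by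
  unfold GX
  refine le_trans ?_ (tsum_mul_rpow_le _ _ h0 h1)
  refine ENNReal.tsum_le_tsum fun N => ?_
  have hs0 : 0 ≤ 1 - s := sub_nonneg.2 h1
  have hpt : ∀ x : Fin N → (E d), wt (fun x y => (1 - s) * W x y + s * W' x y)
      ((1 - s) * ν + s * ν') x = wt W ν x ^ (1 - s) * wt W' ν' x ^ s := by
    intro x
    unfold wt
    rw [ENNReal.ofReal_rpow_of_pos (Real.exp_pos _), ENNReal.ofReal_rpow_of_pos (Real.exp_pos _),
      ← ENNReal.ofReal_mul (by positivity), ← Real.exp_mul, ← Real.exp_mul, ← Real.exp_add]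
    congr 2
    have : quad (fun x y => (1 - s) * W x y + s * W' x y) x
        = (1 - s) * quad W x + s * quad W' x := by
      unfold quad
      simp only [Finset.sum_add_distrib, Finset.mul_sum]
    rw [this]
    ring
  simp_rw [hpt]
  have h2 := ENNReal.lintegral_mul_norm_pow_le
    (μ := (volume : Measure (Fin N → (E d))).restrict {x : Fin N → (E d) | ∀ i, x i ∈ Λ})
    (f := fun x => wt W ν x) (g := fun x => wt W' ν' x)
    (measurable_wt hW ν).aemeasurable (measurable_wt hW' ν').aemeasurable hs0 h0 (by ring)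
  have h3 : (N.factorial : ℝ≥0∞)⁻¹ = ((N.factorial : ℝ≥0∞)⁻¹) ^ (1 - s) *
      ((N.factorial : ℝ≥0∞)⁻¹) ^ s := by
    rw [← ENNReal.rpow_add_of_nonneg _ _ hs0 h0]
    simp
  calc (N.factorial : ℝ≥0∞)⁻¹ * ∫⁻ x in {x : Fin N → (E d) | ∀ i, x i ∈ Λ},
        wt W ν x ^ (1 - s) * wt W' ν' x ^ s
      ≤ (N.factorial : ℝ≥0∞)⁻¹ * ((∫⁻ x in {x : Fin N → (E d) | ∀ i, x i ∈ Λ}, wt W ν x) ^ (1 - s)
          * (∫⁻ x in {x : Fin N → (E d) | ∀ i, x i ∈ Λ}, wt W' ν' x) ^ s) :=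
        mul_le_mul' le_rfl h2
    _ = _ := by
        rw [ENNReal.mul_rpow_of_nonneg _ _ hs0, ENNReal.mul_rpow_of_nonneg _ _ h0]
        conv_lhs => rw [h3]
        ring

/-- Jensen over a finite family of shifts -/
theorem GX_jensen {Λ : Set (E d)} (hΛ : MeasurableSet Λ) {W : (E d) → (E d) → ℝ} {ν ν' : ℝ}
    {l : ℕ} (hl : 0 < l) (V : ℕ → (E d) → (E d) → ℝ) (hV : ∀ θ, Measurable (Function.uncurry (V θ)))
    {M : ℝ≥0∞} (hM : ∀ θ < l, GX Λ (V θ) ν' ≤ M)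
    (h : ∀ (N : ℕ) (x : Fin N → (E d)), (∀ i, x i ∈ Λ) →
      ν * N - quad W x / 2 ≤ (∑ θ ∈ Finset.range l, (ν' * N - quad (V θ) x / 2)) / l) :
    GX Λ W ν ≤ M := by
  have hl' : (0 : ℝ) < l := by exact_mod_cast hl
  have hpt : ∀ (N : ℕ) (x : Fin N → (E d)), (∀ i, x i ∈ Λ) →
      wt W ν x ≤ (l : ℝ≥0∞)⁻¹ * ∑ θ ∈ Finset.range l, wt (V θ) ν' x := by
    intro N x hx
    have h1 : Real.exp (ν * N - quad W x / 2)
        ≤ (l : ℝ)⁻¹ * ∑ θ ∈ Finset.range l, Real.exp (ν' * N - quad (V θ) x / 2) := by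
      refine (Real.exp_le_exp.2 (h N x hx)).trans ?_
      have := convexOn_exp.map_sum_le (t := Finset.range l) (w := fun _ => (l : ℝ)⁻¹)
        (p := fun θ => ν' * N - quad (V θ) x / 2) (fun _ _ => by positivity)
        (by simp [hl'.ne']) (fun _ _ => Set.mem_univ _)
      simp only [smul_eq_mul, ← Finset.mul_sum] at this
      rw [div_eq_inv_mul]
      exact this
    unfold wt
    simp only [Fintype.card_fin]
    rw [← ENNReal.ofReal_sum_of_nonneg (fun _ _ => (Real.exp_pos _).le),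
      ← ENNReal.ofReal_natCast l, ← ENNReal.ofReal_inv_of_pos hl',
      ← ENNReal.ofReal_mul (by positivity)]
    exact ENNReal.ofReal_le_ofReal h1
  have hsum : GX Λ W ν ≤ (l : ℝ≥0∞)⁻¹ * ∑ θ ∈ Finset.range l, GX Λ (V θ) ν' := by
    unfold GX
    calc ∑' N : ℕ, (N.factorial : ℝ≥0∞)⁻¹ * ∫⁻ x in {x : Fin N → (E d) | ∀ i, x i ∈ Λ}, wt W ν x
        ≤ ∑' N : ℕ, ((l : ℝ≥0∞)⁻¹ * ∑ θ ∈ Finset.range l, ((N.factorial : ℝ≥0∞)⁻¹ *
            ∫⁻ x in {x : Fin N → (E d) | ∀ i, x i ∈ Λ}, wt (V θ) ν' x)) := by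
          refine ENNReal.tsum_le_tsum fun N => ?_
          have h2 : ∫⁻ x in {x : Fin N → (E d) | ∀ i, x i ∈ Λ}, wt W ν x
              ≤ (l : ℝ≥0∞)⁻¹ * ∑ θ ∈ Finset.range l,
                ∫⁻ x in {x : Fin N → (E d) | ∀ i, x i ∈ Λ}, wt (V θ) ν' x := by
            rw [← lintegral_finsetSum _ (fun θ _ => measurable_wt (hV θ) ν'),
              ← lintegral_const_mul _ (Finset.measurable_sum _ fun θ _ => measurable_wt (hV θ) ν')]
            exact setLIntegral_mono' (measurableSet_all hΛ) fun x hx => hpt N x hx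
          calc _ ≤ (N.factorial : ℝ≥0∞)⁻¹ * ((l : ℝ≥0∞)⁻¹ * ∑ θ ∈ Finset.range l,
                ∫⁻ x in {x : Fin N → (E d) | ∀ i, x i ∈ Λ}, wt (V θ) ν' x) := mul_le_mul' le_rfl h2
            _ = _ := by
              rw [← Finset.mul_sum]
              ring
      _ = _ := by
          rw [ENNReal.tsum_mul_left, Summable.tsum_finsetSum (fun _ _ => ENNReal.summable)]
  refine hsum.trans ?_
  calc (l : ℝ≥0∞)⁻¹ * ∑ θ ∈ Finset.range l, GX Λ (V θ) ν'
      ≤ (l : ℝ≥0∞)⁻¹ * ∑ θ ∈ Finset.range l, M := by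
        gcongr with θ hθ
        exact hM θ (Finset.mem_range.1 hθ)
    _ = M := by
        rw [Finset.sum_const, Finset.card_range, nsmul_eq_mul, ← mul_assoc,
          ENNReal.inv_mul_cancel (by exact_mod_cast hl.ne') (ENNReal.natCast_ne_top _), one_mul]

/-- Laplace: `exp (τ N² / 2) ≤ ∑_k exp (-τ k² / 2 + τ k N)` -/
theorem GX_laplace {Λ : Set (E d)} (hΛ : MeasurableSet Λ) {W : (E d) → (E d) → ℝ}
    (hW : Measurable (Function.uncurry W)) (ν τ : ℝ) :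
    GX Λ (fun x y => W x y - τ) ν ≤
      ∑' k : ℕ, ENNReal.ofReal (Real.exp (-(τ * (k : ℝ) ^ 2 / 2))) * GX Λ W (ν + τ * k) := by
  unfold GX
  simp_rw [← ENNReal.tsum_mul_left]
  rw [ENNReal.tsum_comm]
  refine ENNReal.tsum_le_tsum fun N => ?_
  refine le_trans ?_ (ENNReal.le_tsum N)
  have h1 : ∀ x : Fin N → (E d), wt (fun x y => W x y - τ) ν x
      = ENNReal.ofReal (Real.exp (-(τ * (N : ℝ) ^ 2 / 2))) * wt W (ν + τ * N) x := by
    intro x
    unfold wt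
    rw [← ENNReal.ofReal_mul (Real.exp_pos _).le, ← Real.exp_add]
    congr 2
    have : quad (fun x y => W x y - τ) x = quad W x - τ * N ^ 2 := by
      unfold quad
      simp only [Finset.sum_sub_distrib, Finset.sum_const, Finset.card_univ, Fintype.card_fin,
        nsmul_eq_mul]
      ring
    rw [this, Fintype.card_fin]
    ring
  simp_rw [h1]
  rw [lintegral_const_mul _ (measurable_wt hW _)]
  apply le_of_eq
  ring

end Vale.Agent.P171.Dim
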