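import Vale.Agent.P171.Dim.Nice

/-!
# The positive definite Kac kernels in dimension `d`
-/

set_option autoImplicit false

open MeasureTheory Filter Topology Metric
open scoped ENNReal

namespace Vale.Agent.P171.Dim

variable {d : ℕ}

/-- Volume of a ball of radius `r`. -/
noncomputable def vball (d : ℕ) (r : ℝ) : ℝ := (volume (Metric.ball (0 : (E d)) r)).toReal

/-- overlap volume of two balls of radius `r` -/
noncomputable def ovl (r : ℝ) (x y : (E d)) : ℝ := (volume (ball x r ∩ ball y r)).toReal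

theorem volume_ball_ne_top (x : (E d)) (r : ℝ) : volume (ball x r) ≠ ⊤ := measure_ball_lt_top.ne

theorem volume_ball_toReal (x : (E d)) (r : ℝ) : (volume (ball x r)).toReal = vball d r := by
  unfold vball
  rw [Measure.addHaar_ball_center volume x r]

theorem vball_pos {r : ℝ} (hr : 0 < r) : 0 < vball d r :=
  ENNReal.toReal_pos (measure_ball_pos volume _ hr).ne' (volume_ball_ne_top _ _)

theorem vball_nonneg (r : ℝ) : 0 ≤ vball d r := ENNReal.toReal_nonneg

theorem vball_mul {r s : ℝ} (hr : 0 < r) : vball d (r * s) = r ^ d * vball d s := by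
  unfold vball
  rw [Measure.addHaar_ball_mul_of_pos volume (0 : E d) hr s, ENNReal.toReal_mul]
  simp [hr.le]

theorem pow_le_vball_of_pos {r : ℝ} (hr : 0 < r) : (r / (d + 1)) ^ d ≤ vball d r := by
  have hs : 0 < r / ((d : ℝ) + 1) := by positivity
  have hsub : box d (r / (d + 1)) ⊆ ball (0 : E d) r := by
    intro x hx
    rw [mem_ball, dist_zero_right, EuclideanSpace.norm_eq, Real.sqrt_lt' hr]
    have h2 : ∀ c, ‖x c‖ ^ 2 ≤ (r / (d + 1)) ^ 2 := by
      intro c
      rw [Real.norm_eq_abs, sq_abs]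
      exact pow_le_pow_left₀ (hx c).1 (hx c).2 2
    have h3 : ∑ c, ‖x c‖ ^ 2 ≤ d * (r / (d + 1)) ^ 2 := by
      calc ∑ c, ‖x c‖ ^ 2 ≤ ∑ _c : Fin d, (r / ((d : ℝ) + 1)) ^ 2 :=
            Finset.sum_le_sum fun c _ => h2 c
        _ = d * (r / (d + 1)) ^ 2 := by simp
    have hd : (0 : ℝ) ≤ d := Nat.cast_nonneg d
    refine h3.trans_lt ?_
    rw [div_pow, mul_div_assoc', div_lt_iff₀ (by positivity)]
    have : 0 < r ^ 2 := by positivity
    have h4 : (d : ℝ) < (d + 1) ^ 2 := by nlinarith
    nlinarith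
  have h := measure_mono (μ := volume) hsub
  rw [volume_box hs.le] at h
  have h4 := ENNReal.toReal_mono (volume_ball_ne_top _ _) h
  rwa [ENNReal.toReal_ofReal (by positivity)] at h4

/-- overlap invariance under affine isometries of the form `f` measure preserving -/
theorem ovl_isometry (f : (E d) ≃ᵢ (E d)) (hf : MeasurePreserving f volume volume) (r : ℝ) (x y : (E d)) :
    ovl r (f x) (f y) = ovl r x y := by
  unfold ovl
  have hx : ∀ x, f ⁻¹' ball (f x) r = ball x r := fun x => by
    rw [IsometryEquiv.preimage_ball, f.symm_apply_apply]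
  rw [← hx x, ← hx y, ← Set.preimage_inter]
  rw [hf.measure_preimage (measurableSet_ball.inter measurableSet_ball).nullMeasurableSet]

theorem ovl_translate (r : ℝ) (v x y : (E d)) : ovl r (x + v) (y + v) = ovl r x y :=
  ovl_isometry (IsometryEquiv.addRight v) (measurePreserving_add_right volume v) r x y

theorem ovl_linear (f : (E d) ≃ₗᵢ[ℝ] (E d)) (r : ℝ) (x y : (E d)) : ovl r (f x) (f y) = ovl r x y :=
  ovl_isometry f.toIsometryEquiv f.measurePreserving r x y

theorem exists_isometry (v w : (E d)) (h : ‖v‖ = ‖w‖) : ∃ f : (E d) ≃ₗᵢ[ℝ] (E d), f v = w :=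
  ⟨Submodule.reflection (ℝ ∙ (v - w))ᗮ, Submodule.reflection_sub h⟩

theorem ovl_nonneg (r : ℝ) (x y : (E d)) : 0 ≤ ovl r x y := ENNReal.toReal_nonneg

theorem ovl_le (r : ℝ) (x y : (E d)) : ovl r x y ≤ vball d r := by
  unfold ovl
  rw [← volume_ball_toReal x r]
  exact ENNReal.toReal_mono (volume_ball_ne_top _ _) (measure_mono Set.inter_subset_left)

theorem measurable_ovl (r : ℝ) : Measurable (fun y : (E d) => ovl r 0 y) := by
  unfold ovl
  apply Measurable.ennreal_toReal
  have h1 : ∀ y : (E d), volume (ball (0 : (E d)) r ∩ ball y r)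
      = ∫⁻ z, ({p : (E d) × (E d) | p.2 ∈ ball (0 : (E d)) r ∧ dist p.2 p.1 < r}.indicator
        (fun _ => (1 : ℝ≥0∞)) (y, z)) := by
    intro y
    have h2 : MeasurableSet (ball (0 : (E d)) r ∩ ball y r) := measurableSet_ball.inter measurableSet_ball
    rw [← lintegral_indicator_one h2]
    refine lintegral_congr fun z => ?_
    by_cases hz : z ∈ ball (0 : (E d)) r ∩ ball y r
    · rw [Set.indicator_of_mem hz, Set.indicator_of_mem]
      · rfl
      · exact ⟨hz.1, hz.2⟩
    · rw [Set.indicator_of_notMem hz, Set.indicator_of_notMem]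
      intro h
      exact hz ⟨h.1, h.2⟩
  simp_rw [h1]
  apply Measurable.lintegral_prod_right'
  apply measurable_const.indicator
  apply MeasurableSet.inter
  · exact measurable_snd measurableSet_ball
  · exact measurableSet_lt (measurable_snd.dist measurable_fst) measurable_const

/-- number of points of the configuration within distance `r` of `z` -/
noncomputable def cntB (r : ℝ) {ι : Type} [Fintype ι] (x : ι → (E d)) (z : (E d)) : ℝ :=
  ∑ i, (ball (x i) r).indicator (fun _ => (1 : ℝ)) z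

theorem integrable_ind {s : Set (E d)} (hs : MeasurableSet s) (h : volume s ≠ ⊤) :
    Integrable (s.indicator (fun _ => (1 : ℝ))) :=
  (integrable_indicator_iff hs).2 (integrableOn_const h)

theorem integral_ind {s : Set (E d)} (hs : MeasurableSet s) :
    ∫ z, s.indicator (fun _ => (1 : ℝ)) z = (volume s).toReal := by
  rw [integral_indicator hs]
  simp [Measure.real]

theorem cntB_sq (r : ℝ) {ι : Type} [Fintype ι] (x : ι → (E d)) (z : (E d)) :
    cntB r x z ^ 2 = ∑ i, ∑ j, (ball (x i) r ∩ ball (x j) r).indicator (fun _ => (1 : ℝ)) z := by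
  unfold cntB
  rw [sq, Finset.sum_mul_sum]
  refine Finset.sum_congr rfl fun i _ => Finset.sum_congr rfl fun j _ => ?_
  rw [← Set.inter_indicator_mul]
  simp

theorem inter_ball_ne_top (x y : (E d)) (r : ℝ) : volume (ball x r ∩ ball y r) ≠ ⊤ :=
  ne_top_of_le_ne_top (volume_ball_ne_top x r) (measure_mono Set.inter_subset_left)

theorem integrable_cntB (r : ℝ) {ι : Type} [Fintype ι] (x : ι → (E d)) :
    Integrable (fun z => cntB r x z) := by
  unfold cntB
  exact integrable_finsetSum _ fun i _ => integrable_ind measurableSet_ball (volume_ball_ne_top _ _)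

theorem integrable_cntB_sq (r : ℝ) {ι : Type} [Fintype ι] (x : ι → (E d)) :
    Integrable (fun z => cntB r x z ^ 2) := by
  simp_rw [cntB_sq]
  exact integrable_finsetSum _ fun i _ => integrable_finsetSum _ fun j _ =>
    integrable_ind (measurableSet_ball.inter measurableSet_ball) (inter_ball_ne_top _ _ _)

theorem integral_cntB (r : ℝ) {ι : Type} [Fintype ι] (x : ι → (E d)) :
    ∫ z, cntB r x z = Fintype.card ι * vball d r := by
  unfold cntB
  rw [integral_finsetSum _ fun i _ => integrable_ind measurableSet_ball (volume_ball_ne_top _ _)]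
  simp_rw [integral_ind measurableSet_ball, volume_ball_toReal]
  simp

theorem integral_cntB_sq (r : ℝ) {ι : Type} [Fintype ι] (x : ι → (E d)) :
    ∫ z, cntB r x z ^ 2 = ∑ i, ∑ j, ovl r (x i) (x j) := by
  simp_rw [cntB_sq]
  rw [integral_finsetSum _ fun i _ => integrable_finsetSum _ fun j _ =>
    integrable_ind (measurableSet_ball.inter measurableSet_ball) (inter_ball_ne_top _ _ _)]
  refine Finset.sum_congr rfl fun i _ => ?_
  rw [integral_finsetSum _ fun j _ =>
    integrable_ind (measurableSet_ball.inter measurableSet_ball) (inter_ball_ne_top _ _ _)]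
  refine Finset.sum_congr rfl fun j _ => ?_
  rw [integral_ind (measurableSet_ball.inter measurableSet_ball)]
  rfl

/-- the block with index `g`, as a product of half open intervals -/
theorem blk_eq_iff (l θ : ℕ) (hl : 0 < l) (y : (E d)) (g : Fin d → ℤ) :
    blk l θ y = g ↔ ∀ c, (l : ℝ) * g c - θ ≤ y c ∧ y c < (l : ℝ) * g c - θ + l := by
  have hl' : (0 : ℤ) < (l : ℤ) := by exact_mod_cast hl
  rw [funext_iff]
  refine forall_congr' fun c => ?_
  unfold blk
  have h1 : (⌊y c⌋ + (θ : ℤ)) / (l : ℤ) = g c ↔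
      g c * (l : ℤ) ≤ ⌊y c⌋ + (θ : ℤ) ∧ ⌊y c⌋ + (θ : ℤ) < (g c + 1) * (l : ℤ) := by
    rw [← Int.le_ediv_iff_mul_le hl', ← Int.ediv_lt_iff_lt_mul hl']
    omega
  rw [h1]
  have h2 : g c * (l : ℤ) ≤ ⌊y c⌋ + (θ : ℤ) ↔ (l : ℝ) * g c - θ ≤ y c := by
    have : g c * (l : ℤ) ≤ ⌊y c⌋ + (θ : ℤ) ↔ g c * (l : ℤ) - θ ≤ ⌊y c⌋ := by omega
    rw [this, Int.le_floor]
    push_cast
    rw [mul_comm]
  have h3 : ⌊y c⌋ + (θ : ℤ) < (g c + 1) * (l : ℤ) ↔ y c < (l : ℝ) * g c - θ + l := by
    have : ⌊y c⌋ + (θ : ℤ) < (g c + 1) * (l : ℤ) ↔ ⌊y c⌋ < (g c + 1) * (l : ℤ) - θ := by omega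
    rw [this, Int.floor_lt]
    push_cast
    constructor <;> intro h <;> linarith
  rw [h2, h3]

theorem volume_block (l θ : ℕ) (hl : 0 < l) (g : Fin d → ℤ) :
    volume {y : (E d) | blk l θ y = g} = ENNReal.ofReal ((l : ℝ) ^ d) := by
  have h := PiLp.volume_preserving_ofLp (Fin d)
  have hset : {y : (E d) | blk l θ y = g} = (@WithLp.ofLp 2 (Fin d → ℝ)) ⁻¹'
      (Set.univ.pi fun c => Set.Ico ((l : ℝ) * g c - θ) ((l : ℝ) * g c - θ + l)) := by
    ext y
    simp only [Set.mem_ofPred_eq, blk_eq_iff l θ hl, Set.mem_preimage, Set.mem_pi, Set.mem_univ,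
      Set.mem_Ico, true_implies]
  rw [hset, h.measure_preimage (MeasurableSet.univ_pi fun _ => measurableSet_Ico).nullMeasurableSet,
    volume_pi_pi]
  simp only [Real.volume_Ico, add_sub_cancel_left, Finset.prod_const, Finset.card_univ,
    Fintype.card_fin]
  rw [ENNReal.ofReal_pow (by positivity)]

theorem measurableSet_block (l θ : ℕ) (hl : 0 < l) (g : Fin d → ℤ) :
    MeasurableSet {y : (E d) | blk l θ y = g} := by
  have hset : {y : (E d) | blk l θ y = g} = (@WithLp.ofLp 2 (Fin d → ℝ)) ⁻¹'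
      (Set.univ.pi fun c => Set.Ico ((l : ℝ) * g c - θ) ((l : ℝ) * g c - θ + l)) := by
    ext y
    simp only [Set.mem_ofPred_eq, blk_eq_iff l θ hl, Set.mem_preimage, Set.mem_pi, Set.mem_univ,
      Set.mem_Ico, true_implies]
  rw [hset]
  exact (PiLp.volume_preserving_ofLp (Fin d)).measurable
    (MeasurableSet.univ_pi fun _ => measurableSet_Ico)

theorem same_block_near (l θ : ℕ) (hl : 0 < l) {x y : E d} (h : blk l θ x = blk l θ y) :
    ‖x - y‖ < (d + 1) * l := by
  have hl' : (0 : ℝ) < l := by exact_mod_cast hl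
  have hx := (blk_eq_iff l θ hl x (blk l θ y)).1 h
  have hy := (blk_eq_iff l θ hl y (blk l θ y)).1 rfl
  have h1 : ∀ c, |x c - y c| < l := by
    intro c
    rw [abs_lt]
    constructor <;> linarith [(hx c).1, (hx c).2, (hy c).1, (hy c).2]
  have h2 : ∀ c, ‖(x - y) c‖ ^ 2 ≤ (l : ℝ) ^ 2 := by
    intro c
    rw [Real.norm_eq_abs]
    have : (x - y) c = x c - y c := rfl
    rw [this]
    exact pow_le_pow_left₀ (abs_nonneg _) (h1 c).le 2
  have h3 : ∑ c, ‖(x - y) c‖ ^ 2 ≤ d * (l : ℝ) ^ 2 := by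
    calc ∑ c, ‖(x - y) c‖ ^ 2 ≤ ∑ _c : Fin d, (l : ℝ) ^ 2 := Finset.sum_le_sum fun c _ => h2 c
      _ = d * (l : ℝ) ^ 2 := by simp
  have hd : (0 : ℝ) ≤ d := Nat.cast_nonneg d
  rw [EuclideanSpace.norm_eq, Real.sqrt_lt' (by positivity)]
  refine h3.trans_lt ?_
  rw [mul_pow]
  have : 0 < (l : ℝ) ^ 2 := by positivity
  have h4 : (d : ℝ) < (d + 1) ^ 2 := by nlinarith
  nlinarith

/-- number of blocks met by points of a ball -/
theorem card_blocks_le (l θ : ℕ) (hl : 0 < l) {r : ℝ} (z : (E d)) (S : Finset (Fin d → ℤ))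
    (hS : ∀ g ∈ S, ∃ y, blk l θ y = g ∧ y ∈ ball z r) :
    (S.card : ℝ) * (l : ℝ) ^ d ≤ vball d (r + (d + 1) * l) := by
  have h1 : volume (⋃ g ∈ S, {y : (E d) | blk l θ y = g}) = S.card * ENNReal.ofReal ((l : ℝ) ^ d) := by
    rw [measure_biUnion_finset]
    · simp_rw [volume_block l θ hl]
      rw [Finset.sum_const, nsmul_eq_mul]
    · intro g _ g' _ hne
      rw [Function.onFun, Set.disjoint_left]
      intro y hy hy'
      exact hne (hy.symm.trans hy')
    · intro g _
      exact measurableSet_block l θ hl g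
  have h2 : (⋃ g ∈ S, {y : (E d) | blk l θ y = g}) ⊆ ball z (r + (d + 1) * l) := by
    intro w hw
    rw [Set.mem_iUnion₂] at hw
    obtain ⟨g, hg, hw⟩ := hw
    obtain ⟨y, hy, hyz⟩ := hS g hg
    have h3 := same_block_near l θ hl (x := w) (y := y) (hw.trans hy.symm)
    rw [mem_ball] at hyz ⊢
    have h4 := dist_triangle w y z
    rw [← dist_eq_norm] at h3
    linarith
  have h3 := measure_mono (μ := volume) h2
  rw [h1] at h3
  have h4 := ENNReal.toReal_mono (volume_ball_ne_top _ _) h3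
  rw [ENNReal.toReal_mul, ENNReal.toReal_natCast, ENNReal.toReal_ofReal (by positivity),
    volume_ball_toReal] at h4
  exact h4

/-- block decomposition of the square of the number of points in a ball -/
theorem cntB_sq_le (l θ : ℕ) (hl : 0 < l) (r : ℝ) {ι : Type} [Fintype ι] (x : ι → (E d))
    (q : (Fin d → ℤ) → (E d)) (hq : ∀ g, blk l θ (q g) = g) (z : (E d)) :
    cntB r x z ^ 2 ≤ vball d (r + (d + 1) * l) / (l : ℝ) ^ d *
      ∑ g ∈ Finset.univ.image (fun i => blk l θ (x i)),
        (cnt (fun i => blk l θ (x i)) g : ℝ) ^ 2 *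
          (ball (q g) (r + (d + 1) * l)).indicator (fun _ => (1 : ℝ)) z := by
  classical
  have hl' : (0 : ℝ) < l := by exact_mod_cast hl
  set κ : ι → (Fin d → ℤ) := fun i => blk l θ (x i) with hκ
  let I : Finset ι := Finset.univ.filter fun i => z ∈ ball (x i) r
  let S : Finset (Fin d → ℤ) := I.image κ
  have h1 : cntB r x z = (I.card : ℝ) := by
    unfold cntB
    rw [Finset.card_filter]
    push_cast
    refine Finset.sum_congr rfl fun i _ => ?_
    rw [Set.indicator_apply]
  have h2 : (I.card : ℝ) ≤ ∑ g ∈ S, (cnt κ g : ℝ) := by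
    rw [Finset.card_eq_sum_card_image κ I]
    push_cast
    refine Finset.sum_le_sum fun g _ => ?_
    have : (I.filter fun i => κ i = g).card ≤ cnt κ g := by
      unfold cnt
      apply Finset.card_le_card
      intro i hi
      rw [Finset.mem_filter] at hi ⊢
      exact ⟨Finset.mem_univ i, hi.2⟩
    exact_mod_cast this
  have h3 : (S.card : ℝ) ≤ vball d (r + (d + 1) * l) / (l : ℝ) ^ d := by
    rw [le_div_iff₀ (by positivity)]
    apply card_blocks_le l θ hl z
    intro g hg
    obtain ⟨i, hi, rfl⟩ := Finset.mem_image.1 hg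
    refine ⟨x i, rfl, ?_⟩
    rw [mem_ball_comm]
    exact (Finset.mem_filter.1 hi).2
  have h4 : (∑ g ∈ S, (cnt κ g : ℝ)) ^ 2 ≤ S.card * ∑ g ∈ S, (cnt κ g : ℝ) ^ 2 :=
    sq_sum_le_card_mul_sum_sq
  have h5 : ∑ g ∈ S, (cnt κ g : ℝ) ^ 2 ≤ ∑ g ∈ Finset.univ.image κ, (cnt κ g : ℝ) ^ 2 *
      (ball (q g) (r + (d + 1) * l)).indicator (fun _ => (1 : ℝ)) z := by
    have h6 : ∑ g ∈ S, (cnt κ g : ℝ) ^ 2 = ∑ g ∈ S, (cnt κ g : ℝ) ^ 2 *
        (ball (q g) (r + (d + 1) * l)).indicator (fun _ => (1 : ℝ)) z := by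
      refine Finset.sum_congr rfl fun g hg => ?_
      rw [Set.indicator_of_mem, mul_one]
      obtain ⟨i, hi, rfl⟩ := Finset.mem_image.1 hg
      have h7 := (Finset.mem_filter.1 hi).2
      have h8 := same_block_near l θ hl (x := q (κ i)) (y := x i) (hq _)
      rw [mem_ball] at h7 ⊢
      have h9 := dist_triangle z (x i) (q (κ i))
      rw [← dist_eq_norm, dist_comm] at h8
      linarith
    rw [h6]
    apply Finset.sum_le_sum_of_subset_of_nonneg
    · exact Finset.image_subset_image (Finset.filter_subset _ _)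
    · intro g _ _
      exact mul_nonneg (sq_nonneg _) (Set.indicator_nonneg (fun _ _ => zero_le_one) _)
  have h0 : 0 ≤ ∑ g ∈ S, (cnt κ g : ℝ) ^ 2 := Finset.sum_nonneg fun _ _ => sq_nonneg _
  have h7 : 0 ≤ vball d (r + (d + 1) * l) / (l : ℝ) ^ d := div_nonneg (vball_nonneg _) (by positivity)
  have h8 : cntB r x z ^ 2 ≤ (∑ g ∈ S, (cnt κ g : ℝ)) ^ 2 := by
    rw [h1]
    exact pow_le_pow_left₀ (Nat.cast_nonneg _) h2 2
  exact ((h8.trans h4).trans (mul_le_mul_of_nonneg_right h3 h0)).trans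
    (mul_le_mul_of_nonneg_left h5 h7)

variable [NeZero d]

/-- Positive definite Kac kernel: volume of the intersection of two balls of radius `r` with
centres at distance `ρ`, divided by the square of the volume of one ball. -/
noncomputable def kac (d : ℕ) [NeZero d] (r ρ : ℝ) : ℝ :=
  (volume (Metric.ball (0 : (E d)) r ∩ Metric.ball (EuclideanSpace.single (0 : Fin d) ρ) r)).toReal
    / vball d r ^ 2

theorem kac_eq_ovl (r ρ : ℝ) :
    kac d r ρ = ovl r 0 (EuclideanSpace.single (0 : Fin d) ρ) / vball d r ^ 2 := rfl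

theorem kac_norm_sub (r : ℝ) (x y : (E d)) : kac d r ‖x - y‖ = ovl r x y / vball d r ^ 2 := by
  rw [kac_eq_ovl]
  congr 1
  have h1 : ovl r x y = ovl r 0 (y - x) := by
    have := ovl_translate r (-x) x y
    rw [← this]
    congr 1
    · simp
  have h2 : ‖y - x‖ = ‖EuclideanSpace.single (0 : Fin d) ‖x - y‖‖ := by
    rw [PiLp.norm_single, norm_norm, norm_sub_rev]
  obtain ⟨f, hf⟩ := exists_isometry _ _ h2
  rw [h1, ← ovl_linear f r 0 (y - x), hf, map_zero]

theorem kac_nonneg (r ρ : ℝ) : 0 ≤ kac d r ρ := div_nonneg (ovl_nonneg _ _ _) (sq_nonneg _)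

theorem kac_le' {r : ℝ} (hr : 0 < r) (ρ : ℝ) : kac d r ρ ≤ (vball d r)⁻¹ := by
  rw [kac_eq_ovl]
  have h := vball_pos (d := d) hr
  rw [div_le_iff₀ (by positivity), sq, ← mul_assoc, inv_mul_cancel₀ h.ne', one_mul]
  exact ovl_le _ _ _

theorem kac_le {r : ℝ} (hr : 0 < r) (ρ : ℝ) : kac d r ρ ≤ ((r / (d + 1)) ^ d)⁻¹ :=
  (kac_le' hr ρ).trans (inv_anti₀ (by positivity) (pow_le_vball_of_pos hr))

theorem kac_eq_zero {r ρ : ℝ} (_hr : 0 < r) (h : 2 * r ≤ ρ) : kac d r ρ = 0 := by
  rw [kac_eq_ovl]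
  unfold ovl
  have : ball (0 : (E d)) r ∩ ball (EuclideanSpace.single (0 : Fin d) ρ) r = ∅ := by
    rw [← Set.disjoint_iff_inter_eq_empty]
    apply ball_disjoint_ball
    rw [dist_zero_left, PiLp.norm_single, Real.norm_eq_abs]
    refine le_trans ?_ (le_abs_self ρ)
    linarith
  rw [this]
  simp

theorem measurable_kac (r : ℝ) : Measurable (kac d r) := by
  have h1 : kac d r = fun ρ => ovl r 0 (EuclideanSpace.single (0 : Fin d) ρ) / vball d r ^ 2 := rfl
  rw [h1]
  apply Measurable.div_const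
  have h2 : Measurable (fun ρ : ℝ => (EuclideanSpace.single (0 : Fin d) ρ : (E d))) := by
    have h3 : (fun ρ : ℝ => (EuclideanSpace.single (0 : Fin d) ρ : (E d)))
        = fun ρ : ℝ => ρ • (EuclideanSpace.single (0 : Fin d) (1 : ℝ) : (E d)) := by
      funext ρ
      ext i
      by_cases hi : i = 0 <;> simp [hi]
    rw [h3]
    exact measurable_id.smul_const _
  exact (measurable_ovl r).comp h2

theorem quad_kac_eq (r : ℝ) {ι : Type} [Fintype ι] (x : ι → (E d)) :
    quad (fun x y => kac d r ‖x - y‖) x = (∫ z, cntB r x z ^ 2) / vball d r ^ 2 := by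
  rw [integral_cntB_sq]
  unfold quad
  simp_rw [kac_norm_sub, Finset.sum_div]

/-- Positive definiteness in linearised form. -/
theorem quad_kac_ge' {r L m : ℝ} (hr : 0 < r) (hL : 0 ≤ L) {ι : Type} [Fintype ι]
    (x : ι → (E d)) (hx : ∀ i, x i ∈ box d L) :
    2 * m * Fintype.card ι - m ^ 2 * (L + 2 * r) ^ d ≤ quad (fun x y => kac d r ‖x - y‖) x := by
  have hv := vball_pos (d := d) hr
  let v : (E d) := WithLp.toLp 2 fun _ => -r
  let Q : Set (E d) := (fun x => x + v) '' box d (L + 2 * r)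
  have hQm : MeasurableSet Q :=
    (MeasurableEquiv.addRight v).measurableEmbedding.measurableSet_image.2 (measurableSet_box _)
  have hQv : (volume Q).toReal = (L + 2 * r) ^ d := by
    have : volume Q = volume (box d (L + 2 * r)) := by
      simp only [Q]
      rw [Set.image_add_right, measure_preimage_add_right]
    rw [this, volume_box (by linarith), ENNReal.toReal_ofReal (by positivity)]
  have hQtop : volume Q ≠ ⊤ := by
    intro h
    rw [h] at hQv
    have : (0 : ℝ) < (L + 2 * r) ^ d := by positivity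
    simp at hQv
    linarith
  have hQmem : ∀ z i, z ∈ ball (x i) r → z ∈ Q := by
    intro z i hz
    refine ⟨z - v, fun c => ?_, by simp⟩
    have h1 : |z c - x i c| < r := by
      have := abs_coord_le_norm (z - x i) c
      rw [mem_ball, dist_eq_norm] at hz
      exact lt_of_le_of_lt this hz
    have h2 := hx i c
    have h3 := abs_lt.1 h1
    have h4 : (z - v) c = z c + r := by
      simp [v]
    rw [h4]
    constructor <;> linarith [h2.1, h2.2, h3.1, h3.2]
  have hpt : ∀ z, 0 ≤ cntB r x z ^ 2 / vball d r ^ 2 - 2 * m / vball d r * cntB r x z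
      + m ^ 2 * Q.indicator (fun _ => (1 : ℝ)) z := by
    intro z
    by_cases hz : z ∈ Q
    · rw [Set.indicator_of_mem hz]
      have : cntB r x z ^ 2 / vball d r ^ 2 - 2 * m / vball d r * cntB r x z + m ^ 2 * 1
          = (cntB r x z / vball d r - m) ^ 2 := by
        field_simp
        ring
      rw [this]
      positivity
    · have h0 : cntB r x z = 0 := by
        unfold cntB
        refine Finset.sum_eq_zero fun i _ => ?_
        rw [Set.indicator_of_notMem fun h => hz (hQmem z i h)]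
      rw [h0, Set.indicator_of_notMem hz]
      simp
  have hint : 0 ≤ ∫ z, (cntB r x z ^ 2 / vball d r ^ 2 - 2 * m / vball d r * cntB r x z
      + m ^ 2 * Q.indicator (fun _ => (1 : ℝ)) z) := integral_nonneg fun z => hpt z
  have i1 : Integrable (fun z => cntB r x z ^ 2 / vball d r ^ 2) := (integrable_cntB_sq r x).div_const _
  have i2 : Integrable (fun z => 2 * m / vball d r * cntB r x z) := (integrable_cntB r x).const_mul _
  have i3 : Integrable (fun z => m ^ 2 * Q.indicator (fun _ => (1 : ℝ)) z) :=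
    (integrable_ind hQm hQtop).const_mul _
  have i12 : Integrable (fun z => cntB r x z ^ 2 / vball d r ^ 2 - 2 * m / vball d r * cntB r x z) :=
    i1.sub i2
  rw [integral_add i12 i3, integral_sub i1 i2, integral_div, integral_const_mul,
    integral_const_mul, integral_cntB, integral_ind hQm, hQv, ← quad_kac_eq] at hint
  have h5 : 2 * m / vball d r * (Fintype.card ι * vball d r) = 2 * m * Fintype.card ι := by
    field_simp
  linarith

/-- Upper bound of the Kac energy by block occupation numbers, sharp as `r / l → ∞`. -/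
theorem quad_kac_le' (l θ : ℕ) (hl : 0 < l) {r : ℝ} (hr : 0 < r) {ι : Type} [Fintype ι]
    (x : ι → (E d)) :
    quad (fun x y => kac d r ‖x - y‖) x ≤
      (1 + (d + 1) * l / r) ^ (2 * d) / (l : ℝ) ^ d * quad (same l θ) x := by
  have hl' : (0 : ℝ) < l := by exact_mod_cast hl
  have hv := vball_pos (d := d) hr
  let q : (Fin d → ℤ) → (E d) := fun g => WithLp.toLp 2 fun c => (l : ℝ) * g c - θ
  have hq : ∀ g, blk l θ (q g) = g := by
    intro g
    rw [blk_eq_iff l θ hl]
    intro c
    simp only [q]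
    constructor <;> linarith
  set κ : ι → (Fin d → ℤ) := fun i => blk l θ (x i) with hκ
  have h1 : ∫ z, cntB r x z ^ 2 ≤ ∫ z, vball d (r + (d + 1) * l) / (l : ℝ) ^ d *
      ∑ g ∈ Finset.univ.image κ, (cnt κ g : ℝ) ^ 2 *
          (ball (q g) (r + (d + 1) * l)).indicator (fun _ => (1 : ℝ)) z := by
    apply integral_mono (integrable_cntB_sq r x)
    · apply Integrable.const_mul
      exact integrable_finsetSum _ fun g _ =>
        (integrable_ind measurableSet_ball (volume_ball_ne_top _ _)).const_mul _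
    · exact fun z => cntB_sq_le l θ hl r x q hq z
  rw [integral_const_mul, integral_finsetSum _ fun g _ =>
    (integrable_ind measurableSet_ball (volume_ball_ne_top _ _)).const_mul _] at h1
  simp_rw [integral_const_mul, integral_ind measurableSet_ball, volume_ball_toReal] at h1
  rw [← Finset.sum_mul, ← double_same κ] at h1
  rw [quad_kac_eq, quad_same, div_le_iff₀ (by positivity)]
  refine h1.trans (le_of_eq ?_)
  have h2 : vball d (r + (d + 1) * l) = (1 + (d + 1) * l / r) ^ d * vball d r := by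
    rw [← vball_mul (by positivity)]
    congr 1
    field_simp
  rw [h2]
  ring

theorem kac_quad_le (l θ : ℕ) (hl : 0 < l) {r : ℝ} (hr : 0 < r) {ι : Type} [Fintype ι]
    (x : ι → (E d)) :
    quad (rad (kac d r)) x ≤ (1 + (d + 1) * (l : ℝ) / r) ^ (2 * d) / (l : ℝ) ^ d * quad (same l θ) x :=
  quad_kac_le' l θ hl hr x

/-- positive definiteness -/
theorem kac_quad_ge {r : ℝ} (hr : 0 < r) {L : ℝ} (hL : 0 < L) {m : ℝ} {N : ℕ}
    (x : Fin N → (E d)) (hx : ∀ i, x i ∈ box d L) :
    2 * m * N - m ^ 2 * (L + 2 * r) ^ d ≤ quad (rad (kac d r)) x := by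
  have := quad_kac_ge' (m := m) hr hL.le x hx
  rw [Fintype.card_fin] at this
  exact this

end Vale.Agent.P171.Dim
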