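import Vale.Agent.P171.Dim.Blocks

/-!
# Superstable pair functions in dimension `d` and their pressure
-/

set_option autoImplicit false

open MeasureTheory Filter Topology Metric
open scoped ENNReal

namespace Vale.Agent.P171.Dim

variable {d : ℕ}

/-- Radial pair function. -/
noncomputable def rad (f : ℝ → ℝ) (x y : (E d)) : ℝ := f ‖x - y‖

/-- Superstable, translation invariant, symmetric pair functions that are attractive beyond
distance `d + 2`. -/
structure Nice (κ : ℝ) (W : (E d) → (E d) → ℝ) : Prop where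
  meas : Measurable (Function.uncurry W)
  symm : ∀ x y, W x y = W y x
  trans : ∀ v x y, W (x + v) (y + v) = W x y
  far : ∀ x y, (d : ℝ) + 2 ≤ ‖x - y‖ → W x y ≤ 0
  sup : ∀ {ι : Type} [Fintype ι] (x : ι → (E d)), κ * quad (same 1 0) x ≤ quad W x

/-- Log of the finite volume partition function. -/
noncomputable def pL (W : (E d) → (E d) → ℝ) (L ν : ℝ) : ℝ := Real.log (GX (box d L) W ν).toReal

/-- Pressure. -/
noncomputable def PW (W : (E d) → (E d) → ℝ) (ν : ℝ) : ℝ :=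
  ⨆ L : {L : ℝ // 0 < L}, pL W L ν / ((L : ℝ) + (d + 2)) ^ d

theorem nice_card_sq_le {L : ℝ} (hL : 0 < L) {N : ℕ} (x : Fin N → (E d)) (hx : ∀ i, x i ∈ box d L) :
    (N : ℝ) ^ 2 ≤ (L + 1) ^ d * quad (same 1 0) x := by
  set V : ℝ := (L + 1) ^ d with hV
  have hVpos : 0 < V := by positivity
  have h := exponent_same_le hL ((N : ℝ) / V) x hx
  have h1 : (N : ℝ) / V * N - quad (same 1 0) x / 2 ≤ ((N : ℝ) / V) ^ 2 / 2 * V := h
  have h2 : ((N : ℝ) / V) ^ 2 / 2 * V = (N : ℝ) ^ 2 / V / 2 := by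
    field_simp
  have h3 : (N : ℝ) / V * N = (N : ℝ) ^ 2 / V := by
    field_simp
  rw [h2, h3] at h1
  have h4 : (N : ℝ) ^ 2 / V ≤ quad (same 1 0) x := by linarith
  rw [div_le_iff₀ hVpos] at h4
  linarith

section
variable {κ : ℝ} (hκ : 1 ≤ κ) {W : (E d) → (E d) → ℝ} (hW : Nice κ W)
include hκ hW

theorem nice_exponent_le {L : ℝ} (hL : 0 < L) (ν : ℝ) {N : ℕ} (x : Fin N → (E d))
    (hx : ∀ i, x i ∈ box d L) : ν * N - quad W x / 2 ≤ ν ^ 2 / (2 * κ) * (L + 1) ^ d := by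
  have hκ0 : 0 < κ := by linarith
  have h1 := nice_card_sq_le hL x hx
  have h2 := hW.sup x
  set V : ℝ := (L + 1) ^ d with hV
  have hVpos : 0 < V := by positivity
  have h3 : (N : ℝ) ^ 2 / V ≤ quad (same 1 0) x := by
    rw [div_le_iff₀ hVpos]
    linarith
  have h4 : κ * ((N : ℝ) ^ 2 / V) ≤ quad W x := (mul_le_mul_of_nonneg_left h3 hκ0.le).trans h2
  have h5 : ν ^ 2 / (2 * κ) * V - (ν * N - κ * ((N : ℝ) ^ 2 / V) / 2)
      = (ν * V - κ * N) ^ 2 / (2 * κ * V) := by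
    field_simp
    ring
  have h6 : 0 ≤ (ν * V - κ * N) ^ 2 / (2 * κ * V) := by positivity
  linarith

theorem nice_GX_le {L : ℝ} (hL : 0 < L) (ν : ℝ) :
    GX (box d L) W ν ≤ ENNReal.ofReal (Real.exp ((ν ^ 2 / (2 * κ) + 1) * (L + 1) ^ d)) := by
  have h1 : volume (box d L) ≤ ENNReal.ofReal ((L + 1) ^ d) := by
    rw [volume_box hL.le]
    apply ENNReal.ofReal_le_ofReal
    gcongr
    linarith
  refine (GX_le_exp (measurableSet_box L) (by positivity) h1
    (fun N x hx => nice_exponent_le hκ hW hL ν x hx)).trans (le_of_eq ?_)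
  congr 2
  ring

theorem nice_GX_ne_top {L : ℝ} (hL : 0 < L) (ν : ℝ) : GX (box d L) W ν ≠ ⊤ :=
  ne_top_of_le_ne_top ENNReal.ofReal_ne_top (nice_GX_le hκ hW hL ν)

theorem nice_one_le_toReal {L : ℝ} (hL : 0 < L) (ν : ℝ) : 1 ≤ (GX (box d L) W ν).toReal := by
  have h := one_le_GX (box d L) W ν
  have := (ENNReal.toReal_le_toReal ENNReal.one_ne_top (nice_GX_ne_top hκ hW hL ν)).2 h
  simpa using this

theorem pL_nonneg (ν : ℝ) {L : ℝ} (hL : 0 < L) : 0 ≤ pL W L ν :=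
  Real.log_nonneg (nice_one_le_toReal hκ hW hL _)

theorem pL_le {L : ℝ} (hL : 0 < L) (ν : ℝ) :
    pL W L ν ≤ (ν ^ 2 / (2 * κ) + 1) * (L + 1) ^ d := by
  unfold pL
  rw [← Real.log_exp ((ν ^ 2 / (2 * κ) + 1) * (L + 1) ^ d)]
  apply Real.log_le_log
  · exact lt_of_lt_of_le one_pos (nice_one_le_toReal hκ hW hL _)
  · have := ENNReal.toReal_mono ENNReal.ofReal_ne_top (nice_GX_le hκ hW hL ν)
    rwa [ENNReal.toReal_ofReal (Real.exp_pos _).le] at this

theorem pL_div_le (ν : ℝ) {L : ℝ} (hL : 0 < L) :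
    pL W L ν / (L + (d + 2)) ^ d ≤ 1 + ν ^ 2 / (2 * κ) := by
  rw [div_le_iff₀ (by positivity)]
  refine (pL_le hκ hW hL ν).trans ?_
  have h1 : (L + 1) ^ d ≤ (L + (d + 2)) ^ d := by
    gcongr
    linarith [Nat.cast_nonneg (α := ℝ) d]
  have h2 : 0 ≤ ν ^ 2 / (2 * κ) + 1 := by
    have : 0 < κ := by linarith
    positivity
  calc (ν ^ 2 / (2 * κ) + 1) * (L + 1) ^ d ≤ (ν ^ 2 / (2 * κ) + 1) * (L + (d + 2)) ^ d := by gcongr
    _ = _ := by ring

theorem bddAbove_pL (ν : ℝ) :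
    BddAbove (Set.range fun L : {L : ℝ // 0 < L} => pL W L ν / ((L : ℝ) + (d + 2)) ^ d) := by
  refine ⟨1 + ν ^ 2 / (2 * κ), ?_⟩
  rintro _ ⟨L, rfl⟩
  exact pL_div_le hκ hW ν L.2

theorem pL_div_le_PW (ν : ℝ) {L : ℝ} (hL : 0 < L) : pL W L ν / (L + (d + 2)) ^ d ≤ PW W ν :=
  le_ciSup (bddAbove_pL hκ hW ν) ⟨L, hL⟩

theorem pL_le_PW (ν : ℝ) {L : ℝ} (hL : 0 < L) : pL W L ν ≤ (L + (d + 2)) ^ d * PW W ν := by
  have := pL_div_le_PW hκ hW ν hL
  rwa [div_le_iff₀ (by positivity), mul_comm] at this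

theorem GX_eq_exp_pL (ν : ℝ) {L : ℝ} (hL : 0 < L) :
    GX (box d L) W ν = ENNReal.ofReal (Real.exp (pL W L ν)) := by
  unfold pL
  rw [Real.exp_log (lt_of_lt_of_le one_pos (nice_one_le_toReal hκ hW hL ν)),
    ENNReal.ofReal_toReal (nice_GX_ne_top hκ hW hL ν)]

theorem GX_le_exp_PW (ν : ℝ) {L : ℝ} (hL : 0 < L) :
    GX (box d L) W ν ≤ ENNReal.ofReal (Real.exp ((L + (d + 2)) ^ d * PW W ν)) := by
  rw [GX_eq_exp_pL hκ hW ν hL]
  exact ENNReal.ofReal_le_ofReal (Real.exp_le_exp.2 (pL_le_PW hκ hW ν hL))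

theorem PW_nonneg (ν : ℝ) : 0 ≤ PW W ν := by
  have h1 := pL_div_le_PW hκ hW ν one_pos
  have h2 := pL_nonneg hκ hW ν one_pos
  exact le_trans (by positivity) h1

theorem PW_le (ν : ℝ) : PW W ν ≤ 1 + ν ^ 2 / (2 * κ) := by
  have : Nonempty {L : ℝ // 0 < L} := ⟨⟨1, one_pos⟩⟩
  exact ciSup_le fun L => pL_div_le hκ hW ν L.2

omit hW in
theorem PW_le_of_pL_le {W' : (E d) → (E d) → ℝ} (hW' : Nice κ W') {ν ν' : ℝ}
    (h : ∀ L : ℝ, 0 < L → pL W L ν ≤ pL W' L ν') : PW W ν ≤ PW W' ν' := by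
  have : Nonempty {L : ℝ // 0 < L} := ⟨⟨1, one_pos⟩⟩
  refine ciSup_le fun L => ?_
  refine le_trans ?_ (pL_div_le_PW hκ hW' ν' L.2)
  have hL : (0 : ℝ) < L := L.2
  gcongr
  exact h L L.2

omit hκ hW in
theorem pL_mono_of {W' : (E d) → (E d) → ℝ} {ν ν' L : ℝ}
    (hfin : GX (box d L) W' ν' ≠ ⊤) (hfin' : GX (box d L) W ν ≠ ⊤)
    (h : GX (box d L) W ν ≤ GX (box d L) W' ν') : pL W L ν ≤ pL W' L ν' := by
  unfold pL
  apply Real.log_le_log
  · exact ENNReal.toReal_pos (one_pos.trans_le (one_le_GX _ _ _)).ne' hfin'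
  · exact ENNReal.toReal_mono hfin h

theorem PW_mono_nu {ν ν' : ℝ} (h : ν ≤ ν') : PW W ν ≤ PW W ν' := by
  refine PW_le_of_pL_le hκ hW fun L hL => ?_
  refine pL_mono_of (nice_GX_ne_top hκ hW hL _) (nice_GX_ne_top hκ hW hL _) ?_
  refine GX_mono (measurableSet_box L) fun N x _ => ?_
  have : ν * (N : ℝ) ≤ ν' * N := by gcongr
  linarith

theorem PW_mono {κ' : ℝ} (hκ' : 1 ≤ κ') {W' : (E d) → (E d) → ℝ} (hW' : Nice κ' W')
    (h : ∀ x y, W' x y ≤ W x y) (ν : ℝ) : PW W ν ≤ PW W' ν := by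
  refine PW_le_of_pL_le hκ' hW' fun L hL => ?_
  refine pL_mono_of (nice_GX_ne_top hκ' hW' hL _) (nice_GX_ne_top hκ hW hL _) ?_
  refine GX_mono (measurableSet_box L) fun N x _ => ?_
  have : quad W' x ≤ quad W x := quad_mono x fun i j => h _ _
  linarith

theorem PW_convex {κ' : ℝ} (hκ' : 1 ≤ κ') {W' : (E d) → (E d) → ℝ} (hW' : Nice κ' W') (ν ν' : ℝ)
    {s : ℝ} (h0 : 0 ≤ s) (h1 : s ≤ 1) :
    PW (fun x y => (1 - s) * W x y + s * W' x y) ((1 - s) * ν + s * ν') ≤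
      (1 - s) * PW W ν + s * PW W' ν' := by
  have : Nonempty {L : ℝ // 0 < L} := ⟨⟨1, one_pos⟩⟩
  refine ciSup_le fun L => ?_
  have hL : (0 : ℝ) < L := L.2
  have hs0 : 0 ≤ 1 - s := sub_nonneg.2 h1
  have hH := GX_holder (measurableSet_box L) hW.meas hW'.meas ν ν' h0 h1
  have hga := nice_GX_ne_top hκ hW hL ν
  have hgb := nice_GX_ne_top hκ' hW' hL ν'
  have hpa := nice_one_le_toReal hκ hW hL ν
  have hpb := nice_one_le_toReal hκ' hW' hL ν'
  have hrhs : (GX (box d L) W ν) ^ (1 - s) * (GX (box d L) W' ν') ^ s ≠ ⊤ :=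
    ENNReal.mul_ne_top (ENNReal.rpow_ne_top_of_nonneg hs0 hga) (ENNReal.rpow_ne_top_of_nonneg h0 hgb)
  have h4 : pL (fun x y => (1 - s) * W x y + s * W' x y) L ((1 - s) * ν + s * ν')
      ≤ (1 - s) * pL W L ν + s * pL W' L ν' := by
    unfold pL
    have h5 := ENNReal.toReal_mono hrhs hH
    rw [ENNReal.toReal_mul, ← ENNReal.toReal_rpow, ← ENNReal.toReal_rpow] at h5
    have h6 : 0 < (GX (box d L) (fun x y => (1 - s) * W x y + s * W' x y)
        ((1 - s) * ν + s * ν')).toReal :=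
      ENNReal.toReal_pos (one_pos.trans_le (one_le_GX _ _ _)).ne' (ne_top_of_le_ne_top hrhs hH)
    refine (Real.log_le_log h6 h5).trans (le_of_eq ?_)
    have hpa' : 0 < (GX (box d L) W ν).toReal := by linarith
    have hpb' : 0 < (GX (box d L) W' ν').toReal := by linarith
    rw [Real.log_mul (Real.rpow_pos_of_pos hpa' _).ne' (Real.rpow_pos_of_pos hpb' _).ne',
      Real.log_rpow hpa', Real.log_rpow hpb']
  have h7 := pL_div_le_PW hκ hW ν hL
  have h8 := pL_div_le_PW hκ' hW' ν' hL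
  calc pL (fun x y => (1 - s) * W x y + s * W' x y) L ((1 - s) * ν + s * ν') / ((L : ℝ) + (d + 2)) ^ d
      ≤ ((1 - s) * pL W L ν + s * pL W' L ν') / ((L : ℝ) + (d + 2)) ^ d := by gcongr
    _ = (1 - s) * (pL W L ν / ((L : ℝ) + (d + 2)) ^ d) + s * (pL W' L ν' / ((L : ℝ) + (d + 2)) ^ d) := by
        ring
    _ ≤ _ := by gcongr

/-- superadditivity -/
theorem pL_super (ν : ℝ) {l : ℝ} (hl : 0 < l) (n : ℕ) {L : ℝ}
    (hL : 0 < L) (hnL : n * (l + (d + 2)) ≤ L) :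
    (n : ℝ) ^ d * pL W l ν ≤ pL W L ν := by
  classical
  let Λ : (Fin d → Fin n) → Set (E d) := fun v =>
    {x | ∀ c, (l + (d + 2)) * (v c : ℝ) ≤ x c ∧ x c ≤ (l + (d + 2)) * (v c : ℝ) + l}
  let w : (Fin d → Fin n) → (E d) := fun v => WithLp.toLp 2 fun c => (l + (d + 2)) * (v c : ℝ)
  have hΛ : ∀ v, Λ v = (fun x => x + w v) '' box d l := by
    intro v
    ext x
    simp only [Λ, box, Set.mem_image, Set.mem_ofPred_eq]
    constructor
    · intro h
      refine ⟨x - w v, fun c => ?_, by simp⟩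
      have := h c
      simp only [PiLp.sub_apply, w]
      constructor <;> linarith [this.1, this.2]
    · rintro ⟨y, hy, rfl⟩ c
      have := hy c
      simp only [PiLp.add_apply, w]
      constructor <;> linarith [this.1, this.2]
  have hGX : ∀ v, GX (Λ v) W ν = GX (box d l) W ν := by
    intro v
    rw [hΛ v]
    exact GX_translate (w v) (fun x y => hW.trans (w v) x y) _
  have hmeas : ∀ v, MeasurableSet (Λ v) := by
    intro v
    rw [hΛ v]
    exact (MeasurableEquiv.addRight (w v)).measurableEmbedding.measurableSet_image.2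
      (measurableSet_box l)
  have hsep : ∀ v v' : Fin d → Fin n, v ≠ v' → ∀ x ∈ Λ v, ∀ y ∈ Λ v', (d : ℝ) + 2 ≤ ‖x - y‖ := by
    have key : ∀ (v v' : Fin d → Fin n) (c : Fin d), v c < v' c → ∀ x ∈ Λ v, ∀ y ∈ Λ v',
        (d : ℝ) + 2 ≤ ‖x - y‖ := by
      intro v v' c hc x hx y hy
      have h1 := (hx c).2
      have h2 := (hy c).1
      have h3 : ((v c : ℕ) : ℝ) + 1 ≤ ((v' c : ℕ) : ℝ) := by exact_mod_cast hc
      have h4 := abs_coord_le_norm (x - y) c
      rw [PiLp.sub_apply] at h4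
      have h5 : (l + (d + 2)) * (((v c : ℕ) : ℝ) + 1) ≤ (l + (d + 2)) * ((v' c : ℕ) : ℝ) := by gcongr
      have h6 : (d : ℝ) + 2 ≤ |x c - y c| := by
        rw [abs_sub_comm]
        refine le_trans ?_ (le_abs_self _)
        linarith
      exact h6.trans h4
    intro v v' hne x hx y hy
    obtain ⟨c, hc⟩ := Function.ne_iff.1 hne
    rcases lt_or_gt_of_ne hc with h | h
    · exact key v v' c h x hx y hy
    · rw [norm_sub_rev]
      exact key v' v c h y hy x hx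
  have hdisj : ∀ v v' : Fin d → Fin n, v ≠ v' → Disjoint (Λ v) (Λ v') := by
    intro v v' hne
    rw [Set.disjoint_left]
    intro x hx hx'
    have := hsep v v' hne x hx x hx'
    simp at this
    linarith
  have h1 := GX_le_biUnion (Finset.univ : Finset (Fin d → Fin n)) (Λ := Λ) (fun v _ => hmeas v)
    (fun v _ v' _ hne => hdisj v v' hne) hW.meas hW.symm ν
    (fun v _ v' _ hne x hx y hy => hW.far x y (hsep v v' hne x hx y hy))
  have h2 : (⋃ v ∈ (Finset.univ : Finset (Fin d → Fin n)), Λ v) ⊆ box d L := by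
    intro x hx
    rw [Set.mem_iUnion₂] at hx
    obtain ⟨v, _, hx⟩ := hx
    intro c
    have h3 := hx c
    have h4 : ((v c : ℕ) : ℝ) + 1 ≤ n := by exact_mod_cast (v c).2
    have h5 : (l + (d + 2)) * (((v c : ℕ) : ℝ) + 1) ≤ (l + (d + 2)) * n := by gcongr
    have h6 : 0 ≤ (l + (d + 2)) * ((v c : ℕ) : ℝ) := by positivity
    constructor
    · linarith [h3.1]
    · linarith [h3.2]
  have h3 : GX (box d l) W ν ^ (n ^ d) ≤ GX (box d L) W ν := by
    refine le_trans (le_of_eq ?_) (h1.trans (GX_mono_set h2 _ _))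
    simp_rw [hGX]
    simp
  unfold pL
  have h4 := ENNReal.toReal_mono (nice_GX_ne_top hκ hW hL ν) h3
  rw [ENNReal.toReal_pow] at h4
  have h5 := nice_one_le_toReal hκ hW hl ν
  have h6 := Real.log_le_log (by positivity) h4
  rw [Real.log_pow] at h6
  push_cast at h6
  exact h6

theorem tendsto_pL (ν : ℝ) :
    Tendsto (fun L : ℝ => pL W L ν / L ^ d) atTop (𝓝 (PW W ν)) := by
  rw [tendsto_order]
  constructor
  · intro b hb
    have : Nonempty {L : ℝ // 0 < L} := ⟨⟨1, one_pos⟩⟩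
    obtain ⟨⟨l, hl⟩, hbl⟩ := exists_lt_of_lt_ciSup hb
    simp only at hbl
    have hfl : Tendsto (fun L : ℝ => ((⌊L / (l + (d + 2))⌋₊ : ℝ) / (L / (l + (d + 2)))) ^ d *
        (pL W l ν / (l + (d + 2)) ^ d)) atTop (𝓝 (1 ^ d * (pL W l ν / (l + (d + 2)) ^ d))) := by
      refine Tendsto.mul_const _ (Tendsto.pow ?_ d)
      have h1 : Tendsto (fun L : ℝ => L / (l + (d + 2))) atTop atTop :=
        tendsto_id.atTop_div_const (by positivity)
      exact (tendsto_nat_floor_div_atTop (R := ℝ)).comp h1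
    rw [one_pow, one_mul] at hfl
    have hev := (tendsto_order.1 hfl).1 b hbl
    filter_upwards [hev, eventually_gt_atTop 0] with L hL1 hL0
    refine hL1.trans_le ?_
    have h2 := pL_super hκ hW ν hl ⌊L / (l + (d + 2))⌋₊ hL0 (by
      have := Nat.floor_le (show 0 ≤ L / (l + (d + 2)) by positivity)
      rwa [le_div_iff₀ (by positivity)] at this)
    have h3 : ((⌊L / (l + (d + 2))⌋₊ : ℝ) / (L / (l + (d + 2)))) ^ d * (pL W l ν / (l + (d + 2)) ^ d)
        = (⌊L / (l + (d + 2))⌋₊ : ℝ) ^ d * pL W l ν / L ^ d := by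
      rw [div_pow, div_pow]
      field_simp
    rw [h3]
    gcongr
  · intro b hb
    have h1 : Tendsto (fun L : ℝ => (1 + ((d : ℝ) + 2) / L) ^ d * PW W ν) atTop
        (𝓝 ((1 + 0) ^ d * PW W ν)) := by
      refine Tendsto.mul_const _ (Tendsto.pow (Tendsto.const_add 1 ?_) d)
      exact tendsto_const_nhds.div_atTop tendsto_id
    rw [add_zero, one_pow, one_mul] at h1
    have hev := (tendsto_order.1 h1).2 b hb
    filter_upwards [hev, eventually_gt_atTop 0] with L hL1 hL0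
    refine lt_of_le_of_lt ?_ hL1
    have h2 := pL_le_PW hκ hW ν hL0
    rw [div_le_iff₀ (by positivity)]
    refine h2.trans (le_of_eq ?_)
    have e : 1 + ((d : ℝ) + 2) / L = (L + (d + 2)) / L := by field_simp
    rw [e, div_pow]
    field_simp

/-- one particle in the unit box -/
theorem PW_ge_trial {A : ℝ} (hA : ∀ x, W x x ≤ A) (ν : ℝ) : (ν - A / 2) / ((d : ℝ) + 3) ^ d ≤ PW W ν := by
  have h1 := pL_div_le_PW hκ hW ν one_pos
  have h2 : ENNReal.ofReal (Real.exp (ν - A / 2)) ≤ GX (box d 1) W ν := by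
    unfold GX
    refine le_trans ?_ (ENNReal.le_tsum 1)
    have h3 : ∀ x : Fin 1 → (E d), ENNReal.ofReal (Real.exp (ν - A / 2)) ≤ wt W ν x := by
      intro x
      unfold wt quad
      apply ENNReal.ofReal_le_ofReal
      apply Real.exp_le_exp.2
      simp only [Fintype.card_fin, Finset.univ_unique, Finset.sum_singleton]
      have := hA (x default)
      push_cast
      linarith
    calc ENNReal.ofReal (Real.exp (ν - A / 2))
        = (Nat.factorial 1 : ℝ≥0∞)⁻¹ * ∫⁻ x in {x : Fin 1 → (E d) | ∀ i, x i ∈ box d 1},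
            ENNReal.ofReal (Real.exp (ν - A / 2)) := by
          rw [setLIntegral_const, volume_all, volume_box one_pos.le]
          simp
      _ ≤ _ := by
          gcongr with x
          exact h3 x
  have h4 : ν - A / 2 ≤ pL W 1 ν := by
    unfold pL
    rw [← Real.log_exp (ν - A / 2)]
    apply Real.log_le_log (Real.exp_pos _)
    have := ENNReal.toReal_mono (nice_GX_ne_top hκ hW one_pos ν) h2
    rwa [ENNReal.toReal_ofReal (Real.exp_pos _).le] at this
  refine le_trans ?_ h1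
  have h5 : (1 : ℝ) + ((d : ℝ) + 2) = d + 3 := by ring
  rw [h5]
  gcongr

/-- ideal gas bound -/
theorem PW_le_one {ν : ℝ} (h : ∀ {ι : Type} [Fintype ι] (x : ι → (E d)),
    2 * ν * Fintype.card ι ≤ quad W x) : PW W ν ≤ 1 := by
  have : Nonempty {L : ℝ // 0 < L} := ⟨⟨1, one_pos⟩⟩
  refine ciSup_le fun L => ?_
  have hL : (0 : ℝ) < L := L.2
  rw [div_le_one (by positivity)]
  have h1 : GX (box d L) W ν ≤ ENNReal.ofReal (Real.exp (0 + (L : ℝ) ^ d)) := by
    refine GX_le_exp (measurableSet_box L) (by positivity) (volume_box hL.le).le fun N x _ => ?_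
    have h2 := h x
    rw [Fintype.card_fin] at h2
    linarith
  have h3 : pL W L ν ≤ (L : ℝ) ^ d := by
    unfold pL
    rw [← Real.log_exp ((L : ℝ) ^ d)]
    apply Real.log_le_log
    · exact lt_of_lt_of_le one_pos (nice_one_le_toReal hκ hW hL _)
    · have := ENNReal.toReal_mono ENNReal.ofReal_ne_top h1
      rwa [ENNReal.toReal_ofReal (Real.exp_pos _).le, zero_add (_ ^ d)] at this
  refine h3.trans ?_
  gcongr
  linarith

theorem PW_le_of_blocks (ν : ℝ) {l : ℕ} (hl : 0 < l) {c : ℝ}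
    (h : ∀ n : ℕ, 0 < n → GX (box d ((l : ℝ) * n)) W ν ≤
      ENNReal.ofReal (Real.exp (c * ((n : ℝ) + 2) ^ d))) : PW W ν ≤ c / (l : ℝ) ^ d := by
  have hl' : (0 : ℝ) < l := by exact_mod_cast hl
  have hlim1 : Tendsto (fun n : ℕ => pL W ((l : ℝ) * n) ν / ((l : ℝ) * n) ^ d) atTop
      (𝓝 (PW W ν)) := by
    have h1 : Tendsto (fun n : ℕ => (l : ℝ) * (n : ℝ)) atTop atTop :=
      (tendsto_natCast_atTop_atTop).const_mul_atTop hl'
    exact (tendsto_pL hκ hW ν).comp h1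
  have hlim2 : Tendsto (fun n : ℕ => (1 + 2 / (n : ℝ)) ^ d * (c / (l : ℝ) ^ d)) atTop
      (𝓝 ((1 + 0) ^ d * (c / (l : ℝ) ^ d))) := by
    refine Tendsto.mul_const _ (Tendsto.pow (Tendsto.const_add 1 ?_) d)
    exact tendsto_const_nhds.div_atTop tendsto_natCast_atTop_atTop
  rw [add_zero, one_pow, one_mul] at hlim2
  refine le_of_tendsto_of_tendsto hlim1 hlim2 ?_
  filter_upwards [eventually_gt_atTop 0] with n hn
  have hn' : (0 : ℝ) < n := by exact_mod_cast hn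
  have h1 : pL W ((l : ℝ) * n) ν ≤ c * ((n : ℝ) + 2) ^ d := by
    unfold pL
    rw [← Real.log_exp (c * ((n : ℝ) + 2) ^ d)]
    apply Real.log_le_log
    · exact lt_of_lt_of_le one_pos (nice_one_le_toReal hκ hW (by positivity) _)
    · have := ENNReal.toReal_mono ENNReal.ofReal_ne_top (h n hn)
      rwa [ENNReal.toReal_ofReal (Real.exp_pos _).le] at this
  rw [div_le_iff₀ (by positivity)]
  refine h1.trans (le_of_eq ?_)
  have e : 1 + 2 / (n : ℝ) = ((n : ℝ) + 2) / n := by field_simp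
  rw [e, div_pow, mul_pow]
  field_simp

end

end Vale.Agent.P171.Dim
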