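import Vale.Agent.P171.Dim.Decay
import Vale.Agent.P171.H709.Scaled

/-!
# The iteration at every low temperature, in dimension `d`
-/

set_option autoImplicit false
set_option linter.unusedSectionVars false

open MeasureTheory Filter Topology Metric
open scoped ENNReal

namespace Vale.Agent.P171.Dim

variable {d : ℕ} [NeZero d]

/-- Strength of the core. -/
noncomputable def Ad (d : ℕ) : ℝ := 4 ^ d * (2 * (2 ^ 22 + 2)) + 2 ^ 26

omit [NeZero d] in
theorem Ad_pos : 0 < Ad d := by unfold Ad; positivity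

/-- Truncated pair functions. -/
noncomputable def WK (d : ℕ) [NeZero d] (B K : ℕ) : E d → E d → ℝ :=
  rad (fun ρ => core d (Ad d) ρ - gsum d (rr3 B) (trunc (al3 B) K) ρ)

/-- The limiting pair function. -/
noncomputable def WI (d : ℕ) [NeZero d] (B : ℕ) : E d → E d → ℝ :=
  rad (fun ρ => core d (Ad d) ρ - gsum d (rr3 B) (al3 B) ρ)

omit [NeZero d] in
theorem Ad_ge {s : ℝ} (hs : s ≤ 2 * (2 ^ 22 + 2)) : 4 ^ d * s + kap3 ≤ Ad d := by
  have h := mul_le_mul_of_nonneg_left hs (by positivity : (0 : ℝ) ≤ 4 ^ d)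
  unfold Ad kap3
  linarith

section
variable {B : ℕ} (hB : d + 2 ≤ B)
include hB

theorem nice_WI : Nice kap3 (WI d B) := by
  refine nice_core_sub (coef3 hB) Ad_pos.le (Ad_ge ?_)
  have := tsum_al3_le (by omega : 2 ≤ B)
  linarith

theorem nice_WK (K : ℕ) : Nice kap3 (WK d B K) := by
  refine nice_core_sub ((coef3 hB).trunc K) Ad_pos.le (Ad_ge ?_)
  have := (tsum_trunc_le (coef3 hB) K).trans (tsum_al3_le (by omega))
  linarith

theorem nice_WK2 (K : ℕ) : Nice (d := d) kap3 (rad (fun ρ => core d (Ad d) ρ -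
    2 * gsum d (rr3 B) (trunc (al3 B) K) ρ)) := by
  have h := nice_core_sub (A := Ad d) (κ := kap3)
    (((coef3 hB).trunc K).smul (by norm_num : (0 : ℝ) ≤ 2)) Ad_pos.le (Ad_ge (by
      rw [tsum_mul_left]
      have := (tsum_trunc_le (coef3 hB) K).trans (tsum_al3_le (by omega))
      linarith))
  have e : (fun ρ => core d (Ad d) ρ - 2 * gsum d (rr3 B) (trunc (al3 B) K) ρ) =
      fun ρ => core d (Ad d) ρ - gsum d (rr3 B) (fun k => 2 * trunc (al3 B) K k) ρ := by
    funext ρ; rw [gsum_smul]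
  rw [e]; exact h

theorem WK_succ (K : ℕ) : WK d B (K + 1) =
    rad (fun ρ => core d (Ad d) ρ - gsum d (rr3 B) (trunc (al3 B) K) ρ -
      al3 B K * kac d (rr3 B K) ρ) := by
  unfold WK
  congr 1; funext ρ
  rw [gsum_trunc_succ (coef3 hB)]; ring

theorem WK_succ' (K : ℕ) : WK d B (K + 1) =
    fun x y => WK d B K x y - al3 B K * rad (kac d (rr3 B K)) x y := by
  rw [WK_succ hB]
  funext x y
  simp only [WK, rad]

theorem WI_le_WK (K : ℕ) (x y : E d) : WI d B x y ≤ WK d B K x y := by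
  have h := gsum_split (coef3 hB) K ‖x - y‖
  have h1 := gsum_nonneg ((coef3 hB).ctail K) ‖x - y‖
  simp only [WI, WK, rad]
  rw [h]; linarith

end

theorem nice_smul {κ β : ℝ} {W : E d → E d → ℝ} (hβ : 0 ≤ β) (h : Nice κ W) :
    Nice (β * κ) (fun x y => β * W x y) where
  meas := h.meas.const_mul β
  symm := fun x y => by rw [h.symm]
  trans := fun v x y => by rw [h.trans]
  far := fun x y hxy => mul_nonpos_of_nonneg_of_nonpos hβ (h.far x y hxy)
  sup := fun x => by
    rw [quad_smul, mul_assoc]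
    exact mul_le_mul_of_nonneg_left (h.sup x) hβ

/-- Truncated pair functions at inverse temperature `β`. -/
noncomputable def WKb (d : ℕ) [NeZero d] (β : ℝ) (B K : ℕ) (x y : E d) : ℝ := β * WK d B K x y

/-- The limiting pair function at inverse temperature `β`. -/
noncomputable def WIb (d : ℕ) [NeZero d] (β : ℝ) (B : ℕ) (x y : E d) : ℝ := β * WI d B x y

omit [NeZero d] in
theorem core_smul (β A ρ : ℝ) : core d (β * A) ρ = β * core d A ρ := by
  unfold core; ring

section
variable {B : ℕ} (hB : d + 2 ≤ B) {β : ℝ} (hβ : 1 ≤ β)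
include hB hβ

theorem nice_WIb : Nice (β * kap3) (WIb d β B) := nice_smul (by linarith) (nice_WI hB)

theorem nice_WKb (K : ℕ) : Nice (β * kap3) (WKb d β B K) :=
  nice_smul (by linarith) (nice_WK hB K)

omit hB hβ in
theorem WKb_eq (K : ℕ) : WKb d β B K =
    rad (fun ρ => core d (β * Ad d) ρ - gsum d (rr3 B) (fun k => β * trunc (al3 B) K k) ρ) := by
  funext x y
  simp only [WKb, WK, rad, core_smul, gsum_smul]
  ring

theorem nice_WKb2 (K : ℕ) : Nice (d := d) (β * kap3) (rad (fun ρ => core d (β * Ad d) ρ -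
    2 * gsum d (rr3 B) (fun k => β * trunc (al3 B) K k) ρ)) := by
  have h := nice_smul (by linarith : (0 : ℝ) ≤ β) (nice_WK2 hB K)
  have e : (rad (d := d) (fun ρ => core d (β * Ad d) ρ -
      2 * gsum d (rr3 B) (fun k => β * trunc (al3 B) K k) ρ)) = fun x y => β *
        rad (fun ρ => core d (Ad d) ρ - 2 * gsum d (rr3 B) (trunc (al3 B) K) ρ) x y := by
    funext x y
    simp only [rad, core_smul, gsum_smul]
    ring
  rw [e]; exact h

omit hβ in
theorem WKb_succ (K : ℕ) : WKb d β B (K + 1) =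
    rad (fun ρ => core d (β * Ad d) ρ - gsum d (rr3 B) (fun k => β * trunc (al3 B) K k) ρ -
      (β * al3 B K) * kac d (rr3 B K) ρ) := by
  funext x y
  have h := congrFun (congrFun (WK_succ hB K) x) y
  simp only [rad] at h
  simp only [WKb, h, rad, core_smul, gsum_smul]
  ring

omit hβ in
theorem WKb_succ' (K : ℕ) : WKb d β B (K + 1) =
    fun x y => WKb d β B K x y - (β * al3 B K) * rad (kac d (rr3 B K)) x y := by
  funext x y
  have h := congrFun (congrFun (WK_succ' hB K) x) y
  simp only [WKb]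
  rw [h]
  ring

theorem WIb_le_WKb (K : ℕ) (x y : E d) : WIb d β B x y ≤ WKb d β B K x y :=
  mul_le_mul_of_nonneg_left (WI_le_WK hB K x y) (by linarith)

/-- error of the truncation -/
theorem PW_WIb_le (K : ℕ) (ν : ℝ) :
    PW (WIb d β B) ν ≤ PW (WKb d β B K) ν +
      (∑' j, al3 B (j + K)) * (1 + ν ^ 2 / (2 * (β * kap3))) := by
  obtain ⟨s, hs⟩ : ∃ s, s = ∑' j, al3 B (j + K) := ⟨_, rfl⟩
  rw [← hs]
  have hB2 : 2 ≤ B := by omega
  have hκ := H709.one_le_mul_kap hβ
  have hκ0 : 0 < β * kap3 := by linarith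
  have hg : 0 ≤ 1 + ν ^ 2 / (2 * (β * kap3)) := by positivity
  have hsum : Summable fun j => al3 B (j + K) := (summable_nat_add_iff K).mpr (summable_al3 hB2)
  have hs0 : 0 < s := by
    rw [hs]
    exact hsum.tsum_pos (fun j => (al3_pos hB2 _).le) 0 (al3_pos hB2 _)
  have h0 := PW_nonneg hκ (nice_WKb hB hβ K) ν
  by_cases hs1 : 1 ≤ s
  · have h1 := PW_le hκ (nice_WIb hB hβ) ν
    nlinarith
  · have hs1' : s ≤ 1 := (not_le.mp hs1).le
    -- the auxiliary pair function
    have hc : Coef d (rr3 B) (fun k => trunc (al3 B) K k + s⁻¹ * ctail (al3 B) K k) :=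
      ((coef3 hB).trunc K).add (((coef3 hB).ctail K).smul (inv_nonneg.mpr hs0.le))
    have hct : ∑' k, ctail (al3 B) K k = s := by rw [tsum_ctail (summable_al3 hB2), hs]
    have hN0 : Nice (d := d) kap3 (rad (fun ρ => core d (Ad d) ρ -
        gsum d (rr3 B) (fun k => trunc (al3 B) K k + s⁻¹ * ctail (al3 B) K k) ρ)) := by
      refine nice_core_sub hc Ad_pos.le (Ad_ge ?_)
      rw [Summable.tsum_add ((coef3 hB).trunc K).sm (((coef3 hB).ctail K).sm.mul_left _),
        tsum_mul_left, hct, inv_mul_cancel₀ hs0.ne']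
      have := (tsum_trunc_le (coef3 hB) K).trans (tsum_al3_le hB2)
      linarith
    have hN := nice_smul (by linarith : (0 : ℝ) ≤ β) hN0
    have hW : WIb d β B = fun x y => (1 - s) * WKb d β B K x y + s * (β * rad (fun ρ =>
        core d (Ad d) ρ -
        gsum d (rr3 B) (fun k => trunc (al3 B) K k + s⁻¹ * ctail (al3 B) K k) ρ) x y) := by
      funext x y
      simp only [WIb, WKb, WI, WK, rad]
      rw [gsum_add ((coef3 hB).trunc K) (((coef3 hB).ctail K).smul (inv_nonneg.mpr hs0.le)),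
        gsum_smul, gsum_split (coef3 hB) K]
      field_simp
      ring
    have h1 := PW_convex hκ (nice_WKb hB hβ K) hκ hN ν ν hs0.le hs1'
    rw [← hW] at h1
    have e : (1 - s) * ν + s * ν = ν := by ring
    rw [e] at h1
    have h2 := PW_le hκ hN ν
    have h3 := mul_le_mul_of_nonneg_left h2 hs0.le
    have h4 : (1 - s) * PW (WKb d β B K) ν ≤ PW (WKb d β B K) ν := by nlinarith
    linarith

end

/-- The pressure as a function of the chemical potential is convex. -/
theorem convex_PW {κ : ℝ} (hκ : 1 ≤ κ) {W : E d → E d → ℝ} (hW : Nice κ W) (t c : ℝ) :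
    ConvexOn ℝ Set.univ (fun μ => PW W (t * μ + c)) := by
  refine ⟨convex_univ, fun x _ y _ a b ha hb hab => ?_⟩
  have h := PW_convex hκ hW hκ hW (t * x + c) (t * y + c) hb (by linarith : b ≤ 1)
  have ea : 1 - b = a := by linarith
  rw [ea] at h
  have e1 : (fun u v => a * W u v + b * W u v) = W := by
    funext u v
    rw [← add_mul, hab, one_mul]
  have e2 : a * (t * x + c) + b * (t * y + c) = t * (a * x + b * y) + c := by
    have : b = 1 - a := by linarith
    rw [this]; ring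
  rw [e1, e2] at h
  simpa [smul_eq_mul] using h

/-- Bounds used for the constants. -/
noncomputable def C0d (d : ℕ) : ℝ := 1 + (Ad d / 2) ^ 2 / (2 * kap3)

/-- The scale of the chemical potential. -/
noncomputable def Td (d : ℕ) : ℝ := ((d : ℝ) + 3) ^ d

/-- Size of the window of chemical potentials. -/
noncomputable def Dd (d : ℕ) : ℝ := 100 * C0d d

/-- Constant of the errors. -/
noncomputable def K1d (d : ℕ) : ℝ :=
  5 * Kd d * (1 + (Td d * Dd d + Ad d / 2) ^ 2 / kap3) + 2 * ((d : ℝ) + 3)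

omit [NeZero d] in
theorem Td_pos : 0 < Td d := by unfold Td; positivity

omit [NeZero d] in
theorem K1d_nonneg : 0 ≤ K1d d := by
  have hk0 : 0 < kap3 := by linarith [one_le_kap3]
  have := Kd_ge (d := d)
  unfold K1d
  positivity

omit [NeZero d] in
theorem K1_le {β : ℝ} (hβ : 1 ≤ β) :
    5 * Kd d * (1 + (β * (Td d * Dd d) + β * Ad d / 2) ^ 2 / (β * kap3)) + 2 * ((d : ℝ) + 3)
      ≤ β * K1d d := by
  have hβ0 : 0 < β := by linarith
  have hκ0 : 0 < kap3 := by linarith [one_le_kap3]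
  have e : (β * (Td d * Dd d) + β * Ad d / 2) ^ 2 / (β * kap3) =
      β * ((Td d * Dd d + Ad d / 2) ^ 2 / kap3) := by
    field_simp
  rw [e]
  unfold K1d
  have hK := Kd_ge (d := d)
  have hd : (0 : ℝ) ≤ d := Nat.cast_nonneg d
  obtain ⟨q, hq⟩ : ∃ q, q = (Td d * Dd d + Ad d / 2) ^ 2 / kap3 := ⟨_, rfl⟩
  rw [← hq]
  have h1 : 5 * Kd d * (1 + β * q) ≤ β * (5 * Kd d * (1 + q)) := by
    have : 0 ≤ (β - 1) * (5 * Kd d) := mul_nonneg (by linarith) (by linarith)
    linarith
  have h2 : 2 * ((d : ℝ) + 3) ≤ β * (2 * ((d : ℝ) + 3)) := by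
    have : 0 ≤ (β - 1) * (2 * ((d : ℝ) + 3)) := mul_nonneg (by linarith) (by linarith)
    linarith
  linarith

theorem al3_le {B : ℕ} (hB : 2 ≤ B) (k : ℕ) : al3 B k ≤ 2 ^ 22 := by
  unfold al3; split_ifs
  · exact le_rfl
  · have := two_le_bBr hB k
    have h1 : ((bB B k : ℕ) : ℝ)⁻¹ ≤ 1 := inv_le_one_of_one_le₀ (by linarith)
    norm_num; linarith

/-- The upper bound of one step. -/
theorem up_step {B : ℕ} (hB : d + 2 ≤ B) (hBK : 32 * Kd d ≤ B) {β : ℝ} (hβ : 1 ≤ β) (k : ℕ)
    {μ S : ℝ} (hμ : |μ| ≤ β * (Td d * Dd d)) (hS0 : 0 ≤ S)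
    (hS : ∀ y, 0 ≤ y → PW (WKb d β B k) (μ + β * al3 B k * y + β * Ad d / 2) -
      β * al3 B k * y ^ 2 / 2 ≤ S) :
    PW (WKb d β B (k + 1)) (μ + β * Ad d / 2) ≤ S + β * errf (K1d d) B k := by
  have hB2 : 2 ≤ B := by omega
  have hκ := H709.one_le_mul_kap hβ
  have hκ0 : 0 < β * kap3 := by linarith
  have hβ0 : 0 < β := by linarith
  have hA := Ad_pos (d := d)
  have hAb : 0 < β * Ad d := by positivity
  have hb := two_le_bBr hB2 k
  have hbB : (B : ℝ) ≤ (bB B k : ℝ) := by exact_mod_cast B_le_bB (by omega) k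
  obtain ⟨b, hb'⟩ : ∃ b : ℝ, b = (bB B k : ℝ) := ⟨_, rfl⟩
  have hb2 : 2 ≤ b := by rw [hb']; exact hb
  have hb0 : 0 < b := by linarith
  have hb1 : 32 * Kd d ≤ b := by rw [hb']; linarith
  have hb4 : 32 * Kd d ≤ b ^ 4 := by
    refine hb1.trans ?_
    calc b = b ^ 1 := (pow_one b).symm
      _ ≤ b ^ 4 := pow_le_pow_right₀ (by linarith) (by norm_num)
  have hK := Kd_ge (d := d)
  have hll : (ll3 B k : ℝ) = b ^ 12 := by unfold ll3; push_cast; rw [hb']
  have hrr : rr3 B k = b ^ 16 := by unfold rr3; rw [hb']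
  have hRR : (RR3 B k : ℝ) ≤ 2 * b ^ 8 := by
    unfold RR3
    split_ifs
    · push_cast; positivity
    · push_cast; rw [← hb']
  have hal0 := al3_pos hB2 k
  have hfz : ∀ ρ : ℝ, ((RR3 B k : ℕ) : ℝ) ≤ ρ →
      gsum d (rr3 B) (fun j => β * trunc (al3 B) k j) ρ = 0 := by
    intro ρ hρ
    rw [gsum_smul, gsum3_zero hB k ρ hρ, mul_zero]
  have hcf : Coef d (rr3 B) (fun j => β * trunc (al3 B) k j) :=
    ((coef3 hB).trunc k).smul hβ0.le
  have hS' : ∀ y, 0 ≤ y → PW (d := d) (rad (fun ρ => core d (β * Ad d) ρ -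
      gsum d (rr3 B) (fun k_1 => β * trunc (al3 B) k k_1) ρ))
        (μ + β * al3 B k * y + β * Ad d / 2) - β * al3 B k * y ^ 2 / 2 ≤ S := by
    rw [← WKb_eq]
    exact hS
  have h := step3 (d := d) (κ₀ := core d (β * Ad d))
    (f := gsum d (rr3 B) (fun j => β * trunc (al3 B) k j))
    (R := RR3 B k)
    (l := ll3 B k) (α := β * al3 B k) (r := rr3 B k) (κ := β * kap3) (A := β * Ad d)
    (D := β * (Td d * Dd d)) (μ := μ) (S := S)
    (measurable_core3 _) (measurable_gsum hcf) (core3_nonneg hAb.le)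
    (gsum_nonneg hcf) hfz
    (by
      rw [hll]
      have h1 : b ^ 4 ≤ b ^ 12 := pow_le_pow_right₀ (by linarith) (by norm_num)
      linarith)
    (by
      rw [hll]
      have h1 : 16 * Kd d * (RR3 B k : ℝ) ≤ 16 * Kd d * (2 * b ^ 8) :=
        mul_le_mul_of_nonneg_left hRR (by linarith)
      have h2 : 32 * Kd d * b ^ 8 ≤ b ^ 4 * b ^ 8 :=
        mul_le_mul_of_nonneg_right hb4 (by positivity)
      calc 16 * Kd d * (RR3 B k : ℝ) ≤ 16 * Kd d * (2 * b ^ 8) := h1
        _ = 32 * Kd d * b ^ 8 := by ring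
        _ ≤ b ^ 4 * b ^ 8 := h2
        _ = b ^ 12 := by ring)
    (mul_pos hβ0 hal0)
    (by
      have h1 : 1 ≤ al3 B k * (ll3 B k : ℝ) := by
        rw [hll]
        unfold al3
        split_ifs
        · have : (1 : ℝ) ≤ b ^ 12 := one_le_pow₀ (by linarith)
          nlinarith
        · rw [← hb']
          have e : b⁻¹ * b ^ 12 = b ^ 11 := by
            field_simp
          rw [e]
          exact one_le_pow₀ (by linarith)
      rw [mul_assoc]
      exact one_le_mul_of_one_le_of_one_le hβ h1)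
    (by
      rw [hll, hrr]
      have h2 : 32 * Kd d * b ^ 12 ≤ b ^ 4 * b ^ 12 :=
        mul_le_mul_of_nonneg_right hb4 (by positivity)
      have h3 : 0 ≤ 16 * Kd d * b ^ 12 := by
        have : 0 ≤ Kd d := by linarith
        positivity
      calc 16 * Kd d * b ^ 12 ≤ 32 * Kd d * b ^ 12 := by linarith
        _ ≤ b ^ 4 * b ^ 12 := h2
        _ = b ^ 16 := by ring)
    (by
      rw [hll, hrr, ← pow_mul, ← pow_mul]
      exact pow_le_pow_right₀ (by linarith) (by norm_num))
    hκ
    (by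
      have h1 : 16 * al3 B k ≤ kap3 := by
        have := al3_le hB2 k
        unfold kap3
        linarith
      nlinarith)
    (by rw [← WKb_eq]; exact nice_WKb hB hβ k)
    (by rw [← WKb_succ hB]; exact nice_WKb hB hβ (k + 1)) (nice_WKb2 hB hβ k)
    hμ hAb.le hS0 hS'
  rw [← WKb_succ hB] at h
  refine h.trans ?_
  have h2 : 0 ≤ (ll3 B k : ℝ) / rr3 B k + (RR3 B k : ℝ) / (ll3 B k : ℝ) +
      1 / (ll3 B k : ℝ) := by
    rw [hrr]; positivity
  have h3 := mul_le_mul_of_nonneg_right (K1_le (d := d) hβ) h2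
  unfold errf
  linarith

theorem jump_WI {B : ℕ} (hB : d + 2 ≤ B) (hB32 : 32 * Kd d ≤ B) {τ : ℝ} (hτ0 : 0 < τ)
    (hτ : τ ≤ 1 / 256) (hBK : 128 * K1d d < (τ / Td d) ^ 2 * B) {β : ℝ}
    (hβ : 1 ≤ β) (hβτ : 8 < β * 2 ^ 22 * (τ / Td d) ^ 2) :
    ∃ μ : ℝ, ∀ s, PW (WIb d β B) (μ + β * Ad d / 2) +
      max (τ / Td d * (s - μ)) ((1 / 64 - τ) / Td d * (s - μ)) ≤
        PW (WIb d β B) (s + β * Ad d / 2) := by
  have hB2 : 2 ≤ B := by omega
  have hκ := H709.one_le_mul_kap hβ
  have hκ0 : 0 < β * kap3 := by linarith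
  have hk3 := one_le_kap3
  have hk0 : 0 < kap3 := by linarith
  have hβ0 : 0 < β := by linarith
  have hA := Ad_pos (d := d)
  have hAb : 0 < β * Ad d := by positivity
  have hK1 : 0 ≤ K1d d := K1d_nonneg
  have hT0 : 0 < Td d := Td_pos
  have key : ∃ μ : ℝ, ∀ s, PW (WIb d β B) (Td d * μ + β * Ad d / 2) +
      max (τ * (s - μ)) ((1 / 64 - τ) * (s - μ)) ≤ PW (WIb d β B) (Td d * s + β * Ad d / 2) := by
    refine H709.iter_jump (p := fun k μ => PW (WKb d β B k) (Td d * μ + β * Ad d / 2))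
      (P := fun μ => PW (WIb d β B) (Td d * μ + β * Ad d / 2))
      (α := fun k => β * al3 B k / Td d ^ 2)
      (err := fun k => β * errf (K1d d) B k) (ε := fun K => ∑' j, al3 B (j + K))
      (C₀ := β * C0d d) (D := β * Dd d)
      (Cb := fun ν => 1 + (Td d * ν + β * Ad d / 2) ^ 2 / (2 * (β * kap3))) hτ0 hτ
      ?_ ?_ (fun k => div_pos (mul_pos hβ0 (al3_pos hB2 k)) (by positivity)) ?_ ?_ ?_ ?_ ?_ ?_
      ?_ ?_ ?_ ?_ ?_ ?_ ?_ ?_
    · -- convexity
      intro k
      exact convex_PW hκ (nice_WKb hB hβ k) _ _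
    · -- monotone
      intro k x y hxy
      refine PW_mono_nu hκ (nice_WKb hB hβ k) ?_
      have := mul_le_mul_of_nonneg_left hxy hT0.le
      linarith
    · -- growth
      intro k
      refine ⟨1 + (β * Ad d / 2) ^ 2 / (β * kap3), fun ν => ?_⟩
      refine (PW_le hκ (nice_WKb hB hβ k) _).trans ?_
      have hal : al3 B k ≤ 2 ^ 22 := al3_le hB2 k
      have hal0 := al3_pos hB2 k
      obtain ⟨t, ht⟩ : ∃ t, t = Td d * ν := ⟨_, rfl⟩
      have h4 : ν ^ 2 / (8 * (β * al3 B k / Td d ^ 2)) = t ^ 2 / (8 * (β * al3 B k)) := by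
        rw [ht]; field_simp
      rw [h4, ← ht]
      have h1 : (t + β * Ad d / 2) ^ 2 ≤ 2 * (t ^ 2 + (β * Ad d / 2) ^ 2) := by
        nlinarith [sq_nonneg (t - β * Ad d / 2)]
      have h2 : (t + β * Ad d / 2) ^ 2 / (2 * (β * kap3)) ≤
          t ^ 2 / (β * kap3) + (β * Ad d / 2) ^ 2 / (β * kap3) := by
        rw [← add_div, div_le_div_iff₀ (by positivity) hκ0]
        nlinarith
      have h3 : t ^ 2 / (β * kap3) ≤ t ^ 2 / (8 * (β * al3 B k)) := by
        apply div_le_div_of_nonneg_left (sq_nonneg _) (by positivity)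
        have : 8 * al3 B k ≤ kap3 := by unfold kap3; linarith
        nlinarith
      linarith
    · -- lower
      intro k μ y hy
      have h := lower3 hκ hκ (nice_WKb hB hβ k) (mul_pos hβ0 (al3_pos hB2 k)).le
        (rr3_pos hB k)
        (by rw [← WKb_succ' hB]; exact nice_WKb hB hβ (k + 1))
        (Td d * μ + β * Ad d / 2) (y / Td d)
      rw [← WKb_succ' hB] at h
      have e : Td d * μ + β * Ad d / 2 + β * al3 B k * (y / Td d) =
          Td d * (μ + β * al3 B k / Td d ^ 2 * y) + β * Ad d / 2 := by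
        field_simp
        ring
      have e2 : β * al3 B k * (y / Td d) ^ 2 / 2 = β * al3 B k / Td d ^ 2 * y ^ 2 / 2 := by
        field_simp
      rw [e, e2] at h
      exact h
    · -- upper
      intro k μ S hμ hS0 hS
      refine up_step hB hB32 hβ k ?_ hS0 (fun y hy => ?_)
      · rw [abs_mul, abs_of_pos hT0]
        have := mul_le_mul_of_nonneg_left hμ hT0.le
        linarith
      · have h := hS (Td d * y) (by positivity)
        have e : Td d * (μ + β * al3 B k / Td d ^ 2 * (Td d * y)) + β * Ad d / 2 =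
            Td d * μ + β * al3 B k * y + β * Ad d / 2 := by
          field_simp
        have e2 : β * al3 B k / Td d ^ 2 * (Td d * y) ^ 2 / 2 = β * al3 B k * y ^ 2 / 2 := by
          field_simp
        rw [e, e2] at h
        exact h
    · -- nonneg
      intro k ν
      exact PW_nonneg hκ (nice_WKb hB hβ k) _
    · -- trial
      intro k ν
      have h := PW_ge_trial hκ (nice_WKb hB hβ k) (A := β * Ad d) (fun x => by
        simp only [WKb, WK, rad, sub_self, norm_zero]
        have h1 := core3_le (d := d) hA.le 0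
        have h2 := gsum_nonneg ((coef3 hB).trunc k) 0
        exact mul_le_mul_of_nonneg_left (by linarith) hβ0.le) (Td d * ν + β * Ad d / 2)
      have e : (Td d * ν + β * Ad d / 2 - β * Ad d / 2) / ((d : ℝ) + 3) ^ d = ν := by
        have : ((d : ℝ) + 3) ^ d = Td d := rfl
        rw [this]
        field_simp
        ring
      rw [e] at h
      have h0 := PW_nonneg hκ (nice_WKb hB hβ k) (Td d * ν + β * Ad d / 2)
      rcases le_total 0 ν with h1 | h1 <;> linarith
    · -- p 0 0 ≤ 1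
      refine PW_le_one hκ (nice_WKb hB hβ 0) (fun {ι} _ x => ?_)
      have h1 : quad (WKb d β B 0) x = β * quad (rad (core d (Ad d))) x := by
        unfold WKb
        rw [quad_smul]
        congr 1
        unfold WK quad rad
        refine Finset.sum_congr rfl fun i _ => Finset.sum_congr rfl fun j _ => ?_
        change core d (Ad d) ‖x i - x j‖ - gsum d (rr3 B) (trunc (al3 B) 0) ‖x i - x j‖ = _
        rw [gsum_trunc_zero, sub_zero]
      rw [h1]
      have h2 : ∑ i : ι, Ad d ≤ quad (rad (core d (Ad d))) x := by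
        unfold quad
        refine Finset.sum_le_sum fun i _ => ?_
        have h3 : Ad d = rad (core d (Ad d)) (x i) (x i) := by
          unfold rad; rw [sub_self, norm_zero, core3_eq (by positivity)]
        calc Ad d = rad (core d (Ad d)) (x i) (x i) := h3
          _ ≤ ∑ j, rad (core d (Ad d)) (x i) (x j) :=
            Finset.single_le_sum (f := fun j => rad (core d (Ad d)) (x i) (x j))
              (fun j _ => core3_nonneg hA.le _) (Finset.mem_univ i)
      rw [Finset.sum_const, Finset.card_univ, nsmul_eq_mul] at h2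
      have h3 := mul_le_mul_of_nonneg_left h2 hβ0.le
      have e : 2 * (Td d * 0 + β * Ad d / 2) * (Fintype.card ι : ℝ) =
          β * (Fintype.card ι * Ad d) := by ring
      rw [e]
      exact h3
    · -- C₀
      intro k
      refine (PW_le hκ (nice_WKb hB hβ k) _).trans ?_
      have e : (Td d * 0 + β * Ad d / 2) ^ 2 / (2 * (β * kap3)) =
          β * ((Ad d / 2) ^ 2 / (2 * kap3)) := by
        field_simp
        ring
      rw [e]
      unfold C0d
      nlinarith
    · -- D
      unfold Dd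
      exact le_of_eq (by ring)
    · -- α 0
      have : (al3 B 0) = 2 ^ 22 := by unfold al3; simp
      simp only [this]
      have e : β * 2 ^ 22 / Td d ^ 2 * (τ * (1 / 2) ^ (0 + 1)) ^ 2 / 2 =
          (β * 2 ^ 22 * (τ / Td d) ^ 2) / 8 := by
        field_simp
        ring
      rw [e]
      linarith
    · -- errors
      intro k
      have h := H709.errf_lt' hK1 hB2 hBK k
      have h2 := mul_lt_mul_of_pos_left h hβ0
      have e : β * al3 B (k + 1) / Td d ^ 2 * (τ * (1 / 2 : ℝ) ^ (k + 1 + 1)) ^ 2 / 2 =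
          β * (al3 B (k + 1) * (τ / Td d * (1 / 2 : ℝ) ^ (k + 1 + 1)) ^ 2 / 2) := by
        field_simp
      rw [e]
      exact h2
    · have := (errf_tendsto hK1 hB2).const_mul β
      rwa [mul_zero] at this
    · -- tails
      exact tendsto_sum_nat_add (al3 B)
    · -- P ≥ p k
      intro k ν
      exact PW_mono hκ (nice_WKb hB hβ k) hκ (nice_WIb hB hβ) (WIb_le_WKb hB hβ k) _
    · -- P ≤ p k + error
      intro k ν
      exact PW_WIb_le hB hβ k _
  obtain ⟨μ, hμ⟩ := key
  refine ⟨Td d * μ, fun s => ?_⟩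
  have h := hμ (s / Td d)
  have e : Td d * (s / Td d) = s := by field_simp
  rw [e] at h
  have e1 : τ * (s / Td d - μ) = τ / Td d * (s - Td d * μ) := by field_simp
  have e2 : (1 / 64 - τ) * (s / Td d - μ) = (1 / 64 - τ) / Td d * (s - Td d * μ) := by
    field_simp
  rw [e1, e2] at h
  exact h

end Vale.Agent.P171.Dim
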