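import Vale.Agent.P171.Dim.Upper
import Vale.Agent.P171.Bdl.B1

/-!
# One step of the induction in dimension `d`
-/

set_option autoImplicit false
set_option linter.unusedSectionVars false

open MeasureTheory Filter Topology Metric
open scoped ENNReal

namespace Vale.Agent.P171.Dim

variable {d : ℕ} [NeZero d]

omit [NeZero d] in
theorem one_add_pow_le {x : ℝ} (n : ℕ) (h0 : 0 ≤ x) (h1 : n * x ≤ 1 / 2) :
    (1 + x) ^ n ≤ 1 + 2 * (n * x) := by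
  rcases Nat.eq_zero_or_pos n with hn | hn
  · subst hn; simp
  have hn1 : (1 : ℝ) ≤ n := by exact_mod_cast hn
  have hx : x ≤ 1 / 2 := by nlinarith
  have e1 : 1 - n * x ≤ (1 - x) ^ n := by
    have := one_add_mul_le_pow (a := -x) (by linarith) n
    have e : (1 : ℝ) + n * -x = 1 - n * x := by ring
    rw [e] at this
    have e' : (1 : ℝ) + -x = 1 - x := by ring
    rwa [e'] at this
  have e2 : (1 + x) ^ n * (1 - x) ^ n ≤ 1 := by
    rw [← mul_pow]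
    apply pow_le_one₀
    · nlinarith
    · nlinarith
  have e3 : 0 < 1 - n * x := by linarith
  have e4 : 0 ≤ (1 + x) ^ n := by positivity
  have e5 : (1 + x) ^ n * (1 - n * x) ≤ 1 := (mul_le_mul_of_nonneg_left e1 e4).trans e2
  have e6 : (1 + x) ^ n ≤ 1 / (1 - n * x) := by
    rw [le_div_iff₀ e3]; exact e5
  refine e6.trans ?_
  rw [div_le_iff₀ e3]
  have e7 : 0 ≤ (n : ℝ) * x := by positivity
  nlinarith

omit [NeZero d] in
theorem cfac_bounds {R l : ℕ} (hl : 1 ≤ l) (hRl : 2 * (d * (R : ℝ)) ≤ l) :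
    0 ≤ cfac d R l - 1 ∧ cfac d R l - 1 ≤ 2 * (d * ((R : ℝ) / l)) := by
  have hl0 : (0 : ℝ) < l := by exact_mod_cast hl
  have e : (d : ℝ) * (R : ℝ) / l = d * ((R : ℝ) / l) := by ring
  unfold cfac
  rw [e]
  have hx0 : 0 ≤ (d : ℝ) * ((R : ℝ) / l) := by positivity
  have hx1 : (d : ℝ) * ((R : ℝ) / l) ≤ 1 / 2 := by
    rw [← e, div_le_iff₀ hl0]; linarith
  obtain ⟨x, hx⟩ : ∃ x, x = (d : ℝ) * ((R : ℝ) / l) := ⟨_, rfl⟩
  rw [← hx] at hx0 hx1 ⊢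
  have hpos : 0 < 1 - x := by linarith
  constructor
  · have : 1 ≤ (1 - x)⁻¹ := by
      rw [one_le_inv₀ hpos]; linarith
    linarith
  · have : (1 - x)⁻¹ ≤ 1 + 2 * x := by
      rw [inv_le_iff_one_le_mul₀ hpos]
      nlinarith
    linarith

theorem Nice.convex {κ : ℝ} {W W' : (E d) → (E d) → ℝ} (hW : Nice κ W) (hW' : Nice κ W') {s : ℝ}
    (h0 : 0 ≤ s) (h1 : s ≤ 1) : Nice κ (fun x y => (1 - s) * W x y + s * W' x y) where
  meas := by
    have e : Function.uncurry (fun x y => (1 - s) * W x y + s * W' x y) =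
        fun p => (1 - s) * Function.uncurry W p + s * Function.uncurry W' p := by
      ext p; rfl
    rw [e]
    exact (hW.meas.const_mul _).add (hW'.meas.const_mul _)
  symm := fun x y => by rw [hW.symm, hW'.symm]
  trans := fun v x y => by rw [hW.trans, hW'.trans]
  far := fun x y h => by
    have e1 := mul_nonpos_of_nonneg_of_nonpos (sub_nonneg.mpr h1) (hW.far x y h)
    have e2 := mul_nonpos_of_nonneg_of_nonpos h0 (hW'.far x y h)
    linarith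
  sup := fun x => by
    have e1 := mul_le_mul_of_nonneg_left (hW.sup x) (sub_nonneg.mpr h1)
    have e2 := mul_le_mul_of_nonneg_left (hW'.sup x) h0
    have e3 : quad (fun x y => (1 - s) * W x y + s * W' x y) x =
        (1 - s) * quad W x + s * quad W' x := by
      rw [quad_add, quad_smul, quad_smul]
    rw [e3]
    linarith

theorem grow_bound {κ D A μ a y : ℝ} {W : (E d) → (E d) → ℝ} (hκ : 1 ≤ κ) (hμ : |μ| ≤ D) (hA : 0 ≤ A)
    (ha0 : 0 ≤ a) (ha : 8 * a ≤ κ) (hW : Nice κ W) :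
    PW W (μ + a * y + A / 2) ≤ (1 + (D + A / 2) ^ 2 / κ) + a * y ^ 2 / 8 := by
  have hκ0 : 0 < κ := by linarith
  refine (PW_le hκ hW _).trans ?_
  have e1 : (μ + A / 2) ^ 2 ≤ (D + A / 2) ^ 2 := by
    apply sq_le_sq'
    · have := neg_abs_le μ; linarith
    · have := le_abs_self μ; linarith
  have e2 : (μ + a * y + A / 2) ^ 2 ≤ 2 * ((μ + A / 2) ^ 2 + (a * y) ^ 2) := by
    have := sq_nonneg ((μ + A / 2) - a * y)
    nlinarith only [this]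
  have h1 : (μ + a * y + A / 2) ^ 2 / (2 * κ) ≤ ((D + A / 2) ^ 2 + (a * y) ^ 2) / κ := by
    rw [div_le_div_iff₀ (by positivity) hκ0]
    have : (μ + a * y + A / 2) ^ 2 ≤ 2 * ((D + A / 2) ^ 2 + (a * y) ^ 2) := by linarith
    calc (μ + a * y + A / 2) ^ 2 * κ ≤ 2 * ((D + A / 2) ^ 2 + (a * y) ^ 2) * κ :=
          mul_le_mul_of_nonneg_right this hκ0.le
      _ = _ := by ring
  have h3 : (a * y) ^ 2 / κ ≤ a * y ^ 2 / 8 := by
    rw [div_le_div_iff₀ hκ0 (by norm_num)]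
    have e2 : 0 ≤ a * y ^ 2 := by positivity
    calc (a * y) ^ 2 * 8 = (a * y ^ 2) * (8 * a) := by ring
      _ ≤ (a * y ^ 2) * κ := mul_le_mul_of_nonneg_left ha e2
  rw [add_div] at h1
  linarith


/-- the bound of each term of the Laplace sum -/
theorem term_bound {W0 W2 : (E d) → (E d) → ℝ} {κ : ℝ} (hκ : 1 ≤ κ) (hN0 : Nice κ W0)
    (hN2 : Nice κ W2) {l : ℕ} (hl0 : (0 : ℝ) < l) {α δ s s' μ A D S : ℝ} (hα : 0 < α)
    (hδ0 : 0 ≤ δ) (hs0 : 0 ≤ s) (hs'0 : 0 ≤ s') (hε1 : 4 * (δ + s + s') ≤ 1)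
    (hs' : ((l : ℝ) + (d + 2)) ^ d = (l : ℝ) ^ d * (1 + s'))
    (hκa : 8 * (α * (1 + δ)) ≤ κ)
    (hμ : |μ| ≤ D) (hA : 0 ≤ A) (hS0 : 0 ≤ S)
    (hS : ∀ y, 0 ≤ y → PW W0 (μ + α * y + A / 2) - α * y ^ 2 / 2 ≤ S) (i : ℕ) :
    ENNReal.ofReal (Real.exp (-((α * (1 + δ) / (l : ℝ) ^ d) * (i : ℝ) ^ 2 / 2))) *
        GX (box d l) (fun x y => (1 - s) * W0 x y + s * W2 x y)
          (μ + A / 2 + (α * (1 + δ) / (l : ℝ) ^ d) * i) ≤
      ENNReal.ofReal (Real.exp ((l : ℝ) ^ d * (S + 5 * (δ + s + s') * (1 + (D + A / 2) ^ 2 / κ)))) *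
        ENNReal.ofReal (Real.exp (-(α * (1 + δ) * (δ + s + s') / (l : ℝ) ^ d * (i : ℝ) ^ 2))) := by
  obtain ⟨C1, hC1⟩ : ∃ C1, C1 = 1 + (D + A / 2) ^ 2 / κ := ⟨_, rfl⟩
  have hκ0 : 0 < κ := by linarith
  have hC1pos : 0 < C1 := by rw [hC1]; positivity
  obtain ⟨a, ha⟩ : ∃ a, a = α * (1 + δ) := ⟨_, rfl⟩
  have ha0 : 0 < a := by rw [ha]; positivity
  rw [← hC1, ← ha]
  rw [← ha] at hκa
  obtain ⟨y, hy⟩ : ∃ y, y = (i : ℝ) / (l : ℝ) ^ d := ⟨_, rfl⟩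
  have hy0 : 0 ≤ y := by rw [hy]; positivity
  have hi : (i : ℝ) = (l : ℝ) ^ d * y := by rw [hy]; field_simp
  have hν : μ + A / 2 + a / (l : ℝ) ^ d * i = μ + a * y + A / 2 := by
    rw [hi]; field_simp; ring
  have hs1 : s ≤ 1 := by linarith
  have hNc : Nice κ (fun x y => (1 - s) * W0 x y + s * W2 x y) := hN0.convex hN2 hs0 hs1
  rw [hν]
  have hG := GX_le_exp_PW hκ hNc (μ + a * y + A / 2) hl0
  have hg0 : PW W0 (μ + a * y + A / 2) ≤ C1 + a * y ^ 2 / 8 := by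
    rw [hC1]; exact grow_bound hκ hμ hA ha0.le hκa hN0
  have hg2 : PW W2 (μ + a * y + A / 2) ≤ C1 + a * y ^ 2 / 8 := by
    rw [hC1]; exact grow_bound hκ hμ hA ha0.le hκa hN2
  have hh : PW (fun x y => (1 - s) * W0 x y + s * W2 x y) (μ + a * y + A / 2) ≤
      (1 - s) * PW W0 (μ + a * y + A / 2) + s * (C1 + a * y ^ 2 / 8) := by
    have h1 := PW_convex hκ hN0 hκ hN2 (μ + a * y + A / 2) (μ + a * y + A / 2) hs0 hs1
    have e : (1 - s) * (μ + a * y + A / 2) + s * (μ + a * y + A / 2) = μ + a * y + A / 2 := by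
      ring
    rw [e] at h1
    have h2 := mul_le_mul_of_nonneg_left hg2 hs0
    linarith
  have hp1 : PW W0 (μ + a * y + A / 2) ≤ S + (a * y ^ 2) * (1 + δ) / 2 := by
    have h1 := hS ((1 + δ) * y) (by positivity)
    have e1 : μ + α * ((1 + δ) * y) + A / 2 = μ + a * y + A / 2 := by rw [ha]; ring
    rw [e1] at h1
    have e2 : α * ((1 + δ) * y) ^ 2 / 2 = (a * y ^ 2) * (1 + δ) / 2 := by rw [ha]; ring
    rw [e2] at h1
    linarith
  have hexp := step_exponent hC1pos.le hS0 hδ0 hs0 hs'0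
    (by positivity : 0 ≤ a * y ^ 2) hε1 hp1 hg0 hh
  obtain ⟨ε, hε⟩ : ∃ ε, ε = δ + s + s' := ⟨_, rfl⟩
  rw [← hε] at hexp ⊢
  rw [← ENNReal.ofReal_mul (Real.exp_pos _).le, ← Real.exp_add]
  refine (mul_le_mul_right hG _).trans ?_
  rw [← ENNReal.ofReal_mul (Real.exp_pos _).le, ← Real.exp_add]
  apply ENNReal.ofReal_le_ofReal
  apply Real.exp_le_exp.mpr
  have hl3 : (0 : ℝ) < (l : ℝ) ^ d := by positivity
  have h4 := mul_le_mul_of_nonneg_left hexp hl3.le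
  rw [hs']
  have e1 : a / (l : ℝ) ^ d * (i : ℝ) ^ 2 / 2 = (l : ℝ) ^ d * (a * y ^ 2 / 2) := by
    rw [hi]; field_simp
  have e2 : a * ε / (l : ℝ) ^ d * (i : ℝ) ^ 2 = (l : ℝ) ^ d * (a * y ^ 2 * ε) := by
    rw [hi]; field_simp
  rw [e1, e2]
  linarith


omit [NeZero d] in
theorem log_small {l r w : ℝ} (hl : 2 ≤ l) (hr : 0 < r) (hrl : r ^ 2 ≤ l ^ 3) (hd : 1 ≤ d)
    (hw0 : 0 ≤ w) (hw : w ≤ l ^ (d + 2)) :
    Real.log (1 + w) / l ^ d ≤ 2 * ((d : ℝ) + 3) * (l / r) := by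
  have hl0 : 0 < l := by linarith
  have h1 : 1 + w ≤ l ^ (d + 3) := by
    have : (1 : ℝ) ≤ l ^ (d + 2) := one_le_pow₀ (by linarith)
    calc 1 + w ≤ 2 * l ^ (d + 2) := by linarith
      _ ≤ l * l ^ (d + 2) := mul_le_mul_of_nonneg_right hl (by positivity)
      _ = l ^ (d + 3) := by ring
  have hsq : 0 < Real.sqrt l := Real.sqrt_pos.2 hl0
  have h2 : Real.log (1 + w) ≤ 2 * ((d : ℝ) + 3) * Real.sqrt l := by
    calc Real.log (1 + w) ≤ Real.log (l ^ (d + 3)) := Real.log_le_log (by linarith) h1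
      _ = ((d : ℝ) + 3) * Real.log l := by rw [Real.log_pow]; push_cast; ring
      _ = ((d : ℝ) + 3) * (2 * Real.log (Real.sqrt l)) := by
        rw [Real.log_sqrt hl0.le]; ring
      _ ≤ ((d : ℝ) + 3) * (2 * Real.sqrt l) := by
        have := Real.log_le_sub_one_of_pos hsq
        have hd0 : (0 : ℝ) ≤ (d : ℝ) + 3 := by positivity
        apply mul_le_mul_of_nonneg_left _ hd0
        linarith
      _ = 2 * ((d : ℝ) + 3) * Real.sqrt l := by ring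
  have hld : l ≤ l ^ d := by
    calc l = l ^ 1 := (pow_one l).symm
      _ ≤ l ^ d := pow_le_pow_right₀ (by linarith) hd
  have h3 : r ≤ l * Real.sqrt l := by
    apply le_of_sq_le_sq _ (by positivity)
    rw [mul_pow, Real.sq_sqrt hl0.le]
    calc r ^ 2 ≤ l ^ 3 := hrl
      _ = l ^ 2 * l := by ring
  have h4 : Real.sqrt l / l ^ d ≤ l / r := by
    rw [div_le_div_iff₀ (by positivity) hr]
    calc Real.sqrt l * r ≤ Real.sqrt l * (l * Real.sqrt l) := mul_le_mul_of_nonneg_left h3 hsq.le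
      _ = l * (Real.sqrt l * Real.sqrt l) := by ring
      _ = l * l := by rw [Real.mul_self_sqrt hl0.le]
      _ ≤ l * l ^ d := mul_le_mul_of_nonneg_left hld hl0.le
  calc Real.log (1 + w) / l ^ d ≤ 2 * ((d : ℝ) + 3) * Real.sqrt l / l ^ d := by gcongr
    _ = 2 * ((d : ℝ) + 3) * (Real.sqrt l / l ^ d) := by ring
    _ ≤ 2 * ((d : ℝ) + 3) * (l / r) := mul_le_mul_of_nonneg_left h4 (by positivity)

/-- The constant of the error term. -/
noncomputable def Kd (d : ℕ) : ℝ := 4 * ((d : ℝ) + 2) ^ 2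

omit [NeZero d] in
theorem two_d_le_Kd : 2 * (d : ℝ) ≤ Kd d := by
  have hd : (0 : ℝ) ≤ d := Nat.cast_nonneg d
  unfold Kd; nlinarith

omit [NeZero d] in
theorem Kd_ge : 16 ≤ Kd d := by
  have hd : (0 : ℝ) ≤ d := Nat.cast_nonneg d
  unfold Kd; nlinarith

omit [NeZero d] in
theorem delta_bounds {t : ℝ} (ht0 : 0 ≤ t) (ht1 : 16 * Kd d * t ≤ 1) :
    0 ≤ (1 + ((d : ℝ) + 1) * t) ^ (2 * d) - 1 ∧
      (1 + ((d : ℝ) + 1) * t) ^ (2 * d) - 1 ≤ Kd d * t := by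
  have hd : (0 : ℝ) ≤ d := Nat.cast_nonneg d
  have hx0 : 0 ≤ ((d : ℝ) + 1) * t := by positivity
  constructor
  · have : 1 ≤ (1 + ((d : ℝ) + 1) * t) ^ (2 * d) := one_le_pow₀ (by linarith)
    linarith
  have e : 2 * (((2 * d : ℕ) : ℝ) * (((d : ℝ) + 1) * t)) =
      4 * ((d : ℝ) * ((d : ℝ) + 1)) * t := by push_cast; ring
  have hKt : 4 * ((d : ℝ) * ((d : ℝ) + 1)) * t ≤ Kd d * t := by
    apply mul_le_mul_of_nonneg_right _ ht0
    unfold Kd; nlinarith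
  have h := one_add_pow_le (2 * d) hx0 (by linarith)
  rw [e] at h
  linarith

omit [NeZero d] in
theorem sp_bounds (hd1 : 1 ≤ d) {u : ℝ} (hu0 : 0 < u) (hu1 : 16 * Kd d * u ≤ 1) :
    3 * u ≤ (1 + ((d : ℝ) + 2) * u) ^ d - 1 ∧
      (1 + ((d : ℝ) + 2) * u) ^ d - 1 ≤ Kd d * u := by
  have hd : (1 : ℝ) ≤ d := by exact_mod_cast hd1
  have hy0 : 0 ≤ ((d : ℝ) + 2) * u := by positivity
  have hKu : 2 * ((d : ℝ) * ((d : ℝ) + 2)) * u ≤ Kd d * u := by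
    apply mul_le_mul_of_nonneg_right _ hu0.le
    unfold Kd; nlinarith
  have e : 2 * ((d : ℝ) * (((d : ℝ) + 2) * u)) = 2 * ((d : ℝ) * ((d : ℝ) + 2)) * u := by ring
  constructor
  · have h := one_add_mul_le_pow (a := ((d : ℝ) + 2) * u) (by linarith) d
    have e : 3 * u ≤ d * (((d : ℝ) + 2) * u) := by
      have e3 : (3 : ℝ) ≤ d * ((d : ℝ) + 2) := by nlinarith
      calc 3 * u ≤ d * ((d : ℝ) + 2) * u := mul_le_mul_of_nonneg_right e3 hu0.le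
        _ = _ := by ring
    linarith
  · have h := one_add_pow_le d hy0 (by linarith)
    rw [e] at h
    linarith

omit [NeZero d] in
theorem inv_gamma_le {α δ ε l : ℝ} (hl0 : 0 < l) (hα : 0 < α) (hαl : 1 ≤ α * l) (hδ0 : 0 ≤ δ)
    (hε : 3 * (1 / l) ≤ ε) : 1 / (α * (1 + δ) * ε / l ^ d) ≤ l ^ (d + 2) := by
  have hu0 : 0 < 1 / l := by positivity
  have hε0 : 0 < ε := by linarith
  have e1 : 1 / l ^ (d + 2) ≤ α * (1 + δ) * ε / l ^ d := by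
    rw [div_le_div_iff₀ (by positivity) (by positivity)]
    have e2 : 1 / l ≤ ε := by linarith
    have e3 : 1 ≤ α * (1 + δ) * l := by
      have : α * l ≤ α * l * (1 + δ) := le_mul_of_one_le_right (by positivity) (by linarith)
      linarith
    have e4 : 1 ≤ ε * l := by
      have := mul_le_mul_of_nonneg_right e2 hl0.le
      have e5 : 1 / l * l = 1 := by field_simp
      linarith
    calc 1 * l ^ d ≤ (α * (1 + δ) * l) * (ε * l) * l ^ d := by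
          apply mul_le_mul_of_nonneg_right _ (by positivity)
          calc (1 : ℝ) ≤ 1 * (ε * l) := by linarith
            _ ≤ (α * (1 + δ) * l) * (ε * l) :=
              mul_le_mul_of_nonneg_right e3 (by positivity)
      _ = α * (1 + δ) * ε * l ^ (d + 2) := by ring
  calc 1 / (α * (1 + δ) * ε / l ^ d) ≤ 1 / (1 / l ^ (d + 2)) :=
        one_div_le_one_div_of_le (by positivity) e1
    _ = l ^ (d + 2) := by field_simp

theorem step3 {κ₀ f : ℝ → ℝ} (hκm : Measurable κ₀) (hfm : Measurable f)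
    (hκ0 : ∀ ρ, 0 ≤ κ₀ ρ) (hf0 : ∀ ρ, 0 ≤ f ρ) {R l : ℕ} (hfR : ∀ ρ : ℝ, (R : ℝ) ≤ ρ → f ρ = 0)
    (hl : 16 * Kd d ≤ l) (hRl : 16 * Kd d * R ≤ l) {α r : ℝ} (hα : 0 < α) (hαl : 1 ≤ α * l)
    (hr : 16 * Kd d * l ≤ r) (hrl : r ^ 2 ≤ (l : ℝ) ^ 3) {κ : ℝ} (hκ : 1 ≤ κ) (hκα : 16 * α ≤ κ)
    (hN0 : Nice (d := d) κ (rad (fun ρ => κ₀ ρ - f ρ)))
    (hN1 : Nice (d := d) κ (rad (fun ρ => κ₀ ρ - f ρ - α * kac d r ρ)))
    (hN2 : Nice (d := d) κ (rad (fun ρ => κ₀ ρ - 2 * f ρ)))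
    {A D μ S : ℝ} (hμ : |μ| ≤ D) (hA : 0 ≤ A) (hS0 : 0 ≤ S)
    (hS : ∀ y, 0 ≤ y → PW (d := d) (rad (fun ρ => κ₀ ρ - f ρ)) (μ + α * y + A / 2)
      - α * y ^ 2 / 2 ≤ S) :
    PW (d := d) (rad (fun ρ => κ₀ ρ - f ρ - α * kac d r ρ)) (μ + A / 2) ≤
      S + (5 * Kd d * (1 + (D + A / 2) ^ 2 / κ) + 2 * ((d : ℝ) + 3)) *
        ((l : ℝ) / r + R / l + 1 / l) := by
  have hd1 : 1 ≤ d := Nat.one_le_iff_ne_zero.2 (NeZero.ne d)
  have hlr : (256 : ℝ) ≤ l := by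
    have := Kd_ge (d := d)
    linarith
  have hl0 : (0 : ℝ) < l := by linarith
  have hl1 : 1 ≤ l := by
    have : (0 : ℝ) < l := hl0
    exact_mod_cast this
  have hK0 : 0 < Kd d := by linarith [Kd_ge (d := d)]
  have hr0 : 0 < r := lt_of_lt_of_le (by positivity) hr
  have hκ0' : 0 < κ := by linarith
  have hR0 : (0 : ℝ) ≤ R := Nat.cast_nonneg R
  have hdR : 2 * (d * (R : ℝ)) ≤ l := by
    have h2 := two_d_le_Kd (d := d)
    have h3 := mul_le_mul_of_nonneg_right h2 hR0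
    have h4 : 0 ≤ Kd d * R := by positivity
    linarith
  obtain ⟨hs0, hs6⟩ := cfac_bounds (d := d) hl1 hdR
  obtain ⟨s, hs⟩ : ∃ s, s = cfac d R l - 1 := ⟨_, rfl⟩
  rw [← hs] at hs0 hs6
  obtain ⟨v, hv⟩ : ∃ v, v = (R : ℝ) / l := ⟨_, rfl⟩
  have hv1 : 16 * Kd d * v ≤ 1 := by
    rw [hv, mul_div_assoc', div_le_one hl0]; exact hRl
  have hv0 : 0 ≤ v := by rw [hv]; positivity
  rw [← hv] at hs6
  -- the constant δ
  obtain ⟨t, ht⟩ : ∃ t, t = (l : ℝ) / r := ⟨_, rfl⟩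
  have ht0 : 0 ≤ t := by rw [ht]; positivity
  have ht1 : 16 * Kd d * t ≤ 1 := by
    rw [ht, mul_div_assoc', div_le_one hr0]; exact hr
  obtain ⟨hδ0, hδ7⟩ := delta_bounds (d := d) ht0 ht1
  obtain ⟨δ, hδ⟩ : ∃ δ, δ = (1 + ((d : ℝ) + 1) * t) ^ (2 * d) - 1 := ⟨_, rfl⟩
  rw [← hδ] at hδ0 hδ7
  -- the constant s'
  obtain ⟨u, hu⟩ : ∃ u, u = 1 / (l : ℝ) := ⟨_, rfl⟩
  have hu0 : 0 < u := by rw [hu]; positivity
  have hu1 : 16 * Kd d * u ≤ 1 := by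
    rw [hu, mul_div_assoc', mul_one, div_le_one hl0]; exact hl
  obtain ⟨hs'9, hs'10⟩ := sp_bounds (d := d) hd1 hu0 hu1
  obtain ⟨s', hs'⟩ : ∃ s', s' = (1 + ((d : ℝ) + 2) * u) ^ d - 1 := ⟨_, rfl⟩
  rw [← hs'] at hs'9 hs'10
  have hs'0 : 0 ≤ s' := by linarith
  have hsv : s ≤ Kd d * v := by
    have h2 := mul_le_mul_of_nonneg_right (two_d_le_Kd (d := d)) hv0
    linarith
  obtain ⟨K, hK⟩ : ∃ K, K = Kd d := ⟨_, rfl⟩
  rw [← hK] at hv1 ht1 hδ7 hu1 hs'10 hsv ⊢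
  obtain ⟨ε, hε⟩ : ∃ ε, ε = δ + s + s' := ⟨_, rfl⟩
  have hε9 : 3 * u ≤ ε := by rw [hε]; linarith
  have hε0 : 0 < ε := by linarith
  have hε1 : 4 * (δ + s + s') ≤ 1 := by linarith
  have hεb : ε ≤ K * ((l : ℝ) / r + R / l + 1 / l) := by
    rw [hε, ← hu, ← ht, ← hv]; linarith
  obtain ⟨C1, hC1⟩ : ∃ C1, C1 = 1 + (D + A / 2) ^ 2 / κ := ⟨_, rfl⟩
  have hC1pos : 0 < C1 := by rw [hC1]; positivity
  have hs3 : ((l : ℝ) + (d + 2)) ^ d = (l : ℝ) ^ d * (1 + s') := by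
    have e : (l : ℝ) + (d + 2) = l * (1 + ((d : ℝ) + 2) * u) := by
      rw [hu]; field_simp
    rw [e, mul_pow, hs']
    ring
  have hc : cfac d R l = 1 + s := by rw [hs]; ring
  have hWc : rad (d := d) (fun ρ => κ₀ ρ - cfac d R l * f ρ) =
      fun x y => (1 - s) * rad (fun ρ => κ₀ ρ - f ρ) x y + s * rad (fun ρ => κ₀ ρ - 2 * f ρ) x y := by
    funext x y
    simp only [rad, hc]; ring
  have hs1 : s ≤ 1 := by linarith
  have hNc : Nice (d := d) κ (rad (fun ρ => κ₀ ρ - cfac d R l * f ρ)) := by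
    rw [hWc]; exact hN0.convex hN2 hs0 hs1
  have hτ : tauf d α r l = α * (1 + δ) / (l : ℝ) ^ d := by
    unfold tauf
    have e : ((d : ℝ) + 1) * (l : ℝ) / r = ((d : ℝ) + 1) * t := by rw [ht]; ring
    rw [e, hδ]; ring
  have hδ1 : δ ≤ 1 := by linarith
  have hκa : 8 * (α * (1 + δ)) ≤ κ := by
    have : α * (1 + δ) ≤ α * 2 := mul_le_mul_of_nonneg_left (by linarith) hα.le
    linarith
  have hterm : ∀ i : ℕ, ENNReal.ofReal (Real.exp (-(tauf d α r l * (i : ℝ) ^ 2 / 2))) *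
        GX (box d l) (rad (fun ρ => κ₀ ρ - cfac d R l * f ρ)) (μ + A / 2 + tauf d α r l * i) ≤
      ENNReal.ofReal (Real.exp ((l : ℝ) ^ d * (S + 5 * ε * C1))) *
        ENNReal.ofReal (Real.exp (-(α * (1 + δ) * ε / (l : ℝ) ^ d * (i : ℝ) ^ 2))) := by
    intro i
    rw [hτ, hWc, hε, hC1]
    exact term_bound hκ hN0 hN2 hl0 hα hδ0 hs0 hs'0 hε1 hs3 hκa hμ hA hS0 hS i
  obtain ⟨γ, hγ⟩ : ∃ γ, γ = α * (1 + δ) * ε / (l : ℝ) ^ d := ⟨_, rfl⟩
  have hγ0 : 0 < γ := by rw [hγ]; positivity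
  have hw : 1 / γ ≤ (l : ℝ) ^ (d + 2) := by
    rw [hγ]
    exact inv_gamma_le hl0 hα hαl hδ0 (by rw [← hu]; exact hε9)
  have hdRl : d * R < l := by
    have h2 : (d : ℝ) * R < l := by
      have : 0 ≤ (d : ℝ) * R := by positivity
      linarith
    exact_mod_cast h2
  have hup := upper3 hκm hfm hκ0 hf0 hfR hdRl hα.le hr0 hκ hκ hN1 hNc
    (μ + A / 2) ((l : ℝ) ^ d * (S + 5 * ε * C1) + Real.log (1 + 1 / γ)) (by
      refine (ENNReal.tsum_le_tsum hterm).trans ?_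
      rw [ENNReal.tsum_mul_left, Real.exp_add, Real.exp_log (by positivity),
        ENNReal.ofReal_mul (Real.exp_pos _).le]
      gcongr
      rw [← hγ]
      exact tsum_exp_le_bd930 hγ0)
  refine hup.trans ?_
  rw [add_div]
  have hlog := log_small (d := d) (by linarith) hr0 hrl hd1 (by positivity : 0 ≤ 1 / γ) hw
  have e1 : (l : ℝ) ^ d * (S + 5 * ε * C1) / (l : ℝ) ^ d = S + 5 * ε * C1 := by field_simp
  rw [e1, ← hC1]
  have e2 : 5 * ε * C1 ≤ 5 * (K * ((l : ℝ) / r + R / l + 1 / l)) * C1 := by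
    apply mul_le_mul_of_nonneg_right _ hC1pos.le
    linarith
  have e3 : 0 ≤ (R : ℝ) / l := by positivity
  have e4 : 0 ≤ (1 : ℝ) / l := by positivity
  have e5 : 2 * ((d : ℝ) + 3) * ((l : ℝ) / r) ≤
      2 * ((d : ℝ) + 3) * ((l : ℝ) / r + R / l + 1 / l) := by
    apply mul_le_mul_of_nonneg_left _ (by positivity)
    linarith
  calc S + 5 * ε * C1 + Real.log (1 + 1 / γ) / (l : ℝ) ^ d
      ≤ S + 5 * (K * ((l : ℝ) / r + R / l + 1 / l)) * C1 +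
        2 * ((d : ℝ) + 3) * ((l : ℝ) / r + R / l + 1 / l) := by linarith
    _ = S + (5 * K * C1 + 2 * ((d : ℝ) + 3)) * ((l : ℝ) / r + R / l + 1 / l) := by ring

end Vale.Agent.P171.Dim
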