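import Vale.Agent.P171.Dim.Core

/-!
# One step of the induction in dimension `d`: comparison of the pressures
-/

set_option autoImplicit false
set_option linter.unusedSectionVars false

open MeasureTheory Filter Topology Metric
open scoped ENNReal

namespace Vale.Agent.P171.Dim

variable {d : ℕ} [NeZero d]

/-- The factor `(1 - dR/l)⁻¹`. -/
noncomputable def cfac (d R l : ℕ) : ℝ := (1 - d * (R : ℝ) / l)⁻¹

/-- Block mean-field constant. -/
noncomputable def tauf (d : ℕ) (α r : ℝ) (l : ℕ) : ℝ :=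
  α * (1 + ((d : ℝ) + 1) * (l : ℝ) / r) ^ (2 * d) / (l : ℝ) ^ d


/-- comparison of partition functions with an additive constant in the exponent -/
theorem GX_exp_mul_le {Λ : Set (E d)} (hΛ : MeasurableSet Λ) {W W' : (E d) → (E d) → ℝ} {ν ν' c : ℝ}
    (h : ∀ (N : ℕ) (x : Fin N → (E d)), (∀ i, x i ∈ Λ) →
      c + (ν * N - quad W x / 2) ≤ ν' * N - quad W' x / 2) :
    ENNReal.ofReal (Real.exp c) * GX Λ W ν ≤ GX Λ W' ν' := by
  unfold GX
  rw [← ENNReal.tsum_mul_left]
  refine ENNReal.tsum_le_tsum fun N => ?_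
  rw [mul_left_comm]
  refine mul_le_mul' le_rfl ?_
  rw [← lintegral_const_mul' _ _ ENNReal.ofReal_ne_top]
  refine setLIntegral_mono' (measurableSet_all hΛ) fun x hx => ?_
  unfold wt
  rw [← ENNReal.ofReal_mul (Real.exp_pos _).le, ← Real.exp_add]
  apply ENNReal.ofReal_le_ofReal
  apply Real.exp_le_exp.2
  simpa using h N x hx

theorem quad_sub_smul (W V : (E d) → (E d) → ℝ) (α : ℝ) {ι : Type} [Fintype ι] (x : ι → (E d)) :
    quad (fun x y => W x y - α * V x y) x = quad W x - α * quad V x := by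
  unfold quad
  simp only [Finset.sum_sub_distrib, Finset.mul_sum]

theorem pL_lower3 {κ κ' : ℝ} (hκ : 1 ≤ κ) (hκ' : 1 ≤ κ') {W : (E d) → (E d) → ℝ} (hW : Nice κ W)
    {α r : ℝ} (hα : 0 ≤ α) (hr : 0 < r) (hW' : Nice κ' (fun x y => W x y - α * rad (kac d r) x y))
    (ν : ℝ) (m : ℝ) {L : ℝ} (hL : 0 < L) :
    pL W L (ν + α * m) - α * m ^ 2 / 2 * (L + 2 * r) ^ d ≤
      pL (fun x y => W x y - α * rad (kac d r) x y) L ν := by
  have h1 := GX_exp_mul_le (measurableSet_box L) (W := W)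
    (W' := fun x y => W x y - α * rad (kac d r) x y) (ν := ν + α * m) (ν' := ν)
    (c := -(α * m ^ 2 / 2 * (L + 2 * r) ^ d)) (fun N x hx => by
      have h2 := kac_quad_ge (m := m) hr hL x hx
      rw [quad_sub_smul]
      have h3 := mul_le_mul_of_nonneg_left h2 hα
      linarith)
  have hf := nice_GX_ne_top hκ' hW' hL ν
  have h4 := ENNReal.toReal_mono hf h1
  rw [ENNReal.toReal_mul, ENNReal.toReal_ofReal (Real.exp_pos _).le] at h4
  have h5 := nice_one_le_toReal hκ hW hL (ν + α * m)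
  have h6 := Real.log_le_log (mul_pos (Real.exp_pos _) (by linarith)) h4
  rw [Real.log_mul (Real.exp_pos _).ne' (by linarith), Real.log_exp] at h6
  unfold pL
  linarith

theorem lower3 {κ κ' : ℝ} (hκ : 1 ≤ κ) (hκ' : 1 ≤ κ') {W : (E d) → (E d) → ℝ} (hW : Nice κ W)
    {α r : ℝ} (hα : 0 ≤ α) (hr : 0 < r) (hW' : Nice κ' (fun x y => W x y - α * rad (kac d r) x y))
    (ν : ℝ) (m : ℝ) :
    PW W (ν + α * m) - α * m ^ 2 / 2 ≤ PW (fun x y => W x y - α * rad (kac d r) x y) ν := by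
  have hlim1 := tendsto_pL hκ hW (ν + α * m)
  have hlim2 : Tendsto (fun L : ℝ => α * m ^ 2 / 2 * (1 + 2 * r / L) ^ d) atTop
      (𝓝 (α * m ^ 2 / 2 * (1 + 0) ^ d)) := by
    refine Tendsto.const_mul _ (Tendsto.pow (Tendsto.const_add 1 ?_) d)
    exact tendsto_const_nhds.div_atTop tendsto_id
  rw [add_zero, one_pow, mul_one] at hlim2
  have hlim3 := tendsto_pL hκ' hW' ν
  refine le_of_tendsto_of_tendsto (hlim1.sub hlim2) hlim3 ?_
  filter_upwards [eventually_gt_atTop 0] with L hL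
  have h1 := pL_lower3 hκ hκ' hW hα hr hW' ν m hL
  have h2 : α * m ^ 2 / 2 * (1 + 2 * r / L) ^ d = α * m ^ 2 / 2 * (L + 2 * r) ^ d / L ^ d := by
    have h3 : 1 + 2 * r / L = (L + 2 * r) / L := by field_simp
    rw [h3, div_pow]
    ring
  rw [h2, ← sub_div]
  gcongr


/-- decoupled pair function -/
noncomputable def V3 (h : (E d) → (E d) → ℝ) (τ : ℝ) (l θ : ℕ) (x y : (E d)) : ℝ :=
  (h x y - τ) * same l θ x y

theorem measurable_V3 {h : (E d) → (E d) → ℝ} (hm : Measurable (Function.uncurry h)) (τ : ℝ)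
    (l θ : ℕ) : Measurable (Function.uncurry (V3 h τ l θ)) := by
  have h2 := measurable_same (d := d) l θ
  exact (hm.sub measurable_const).mul h2

theorem V3_symm {h : (E d) → (E d) → ℝ} (hs : ∀ x y, h x y = h y x) (τ : ℝ) (l θ : ℕ) (x y : (E d)) :
    V3 h τ l θ x y = V3 h τ l θ y x := by
  unfold V3
  rw [hs, same_symm]

theorem block_product3 {h : (E d) → (E d) → ℝ} (hm : Measurable (Function.uncurry h))
    (hs : ∀ x y, h x y = h y x) (ht : ∀ v x y, h (x + v) (y + v) = h x y) (τ ν : ℝ)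
    {l θ m : ℕ} (hl : 0 < l) (hθ : θ < l) :
    GX (box d ((m * l : ℕ) : ℝ)) (V3 h τ l θ) ν ≤
      (GX (box d l) (fun x y => h x y - τ) ν) ^ ((m + 1) ^ d) := by
  set S := Fintype.piFinset (fun _ : Fin d => Finset.Icc (0 : ℤ) m) with hS
  have h1 : GX (box d ((m * l : ℕ) : ℝ)) (V3 h τ l θ) ν ≤
      GX (⋃ g ∈ S, Bg l θ g) (V3 h τ l θ) ν := GX_mono_set (box_cover l θ m hl hθ) _ _
  have h2 : GX (⋃ g ∈ S, Bg l θ g) (V3 h τ l θ) ν ≤ ∏ g ∈ S, GX (Bg l θ g) (V3 h τ l θ) ν := by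
    apply GX_biUnion_le S (fun g _ => measurableSet_Bg l θ g) _ (measurable_V3 hm τ l θ)
      (V3_symm hs τ l θ) ν
    · intro g _ g' _ hgg x hx y hy
      have : same l θ x y = 0 := by
        unfold same
        rw [if_neg]
        intro h
        apply hgg
        rw [← (show blk l θ x = g from hx), ← (show blk l θ y = g' from hy), h]
      unfold V3
      rw [this, mul_zero]
    · intro g _ g' _ hgg
      rw [Set.disjoint_left]
      intro x hx hx'
      exact hgg ((show blk l θ x = g from hx).symm.trans hx')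
  have h3 : ∀ g, GX (Bg l θ g) (V3 h τ l θ) ν ≤ GX (box d l) (fun x y => h x y - τ) ν := by
    intro g
    calc GX (Bg l θ g) (V3 h τ l θ) ν ≤ GX (Bg l θ g) (fun x y => h x y - τ) ν := by
          apply GX_mono (measurableSet_Bg l θ g)
          intro N x hx
          have : quad (V3 h τ l θ) x = quad (fun x y => h x y - τ) x := by
            unfold quad V3
            refine Finset.sum_congr rfl fun i _ => Finset.sum_congr rfl fun j _ => ?_
            have hij : same l θ (x i) (x j) = 1 := by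
              unfold same
              rw [if_pos]
              rw [show blk l θ (x i) = g from hx i, show blk l θ (x j) = g from hx j]
            rw [hij, mul_one]
          rw [this]
      _ ≤ GX ((fun x => x + (WithLp.toLp 2 (fun c => (l : ℝ) * (g c : ℝ) - θ) : (E d))) '' box d l)
            (fun x y => h x y - τ) ν := GX_mono_set (Bg_subset l θ hl g) _ _
      _ = GX (box d l) (fun x y => h x y - τ) ν := by
          apply GX_translate
          intro x y
          rw [ht]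
  have hcard : S.card = (m + 1) ^ d := by
    rw [hS, Fintype.card_piFinset]
    simp only [Int.card_Icc, Finset.prod_const, Finset.card_univ, Fintype.card_fin]
    congr 1
  calc GX (box d ((m * l : ℕ) : ℝ)) (V3 h τ l θ) ν ≤ ∏ g ∈ S, GX (Bg l θ g) (V3 h τ l θ) ν :=
        h1.trans h2
    _ ≤ ∏ _g ∈ S, GX (box d l) (fun x y => h x y - τ) ν :=
        Finset.prod_le_prod' fun g _ => h3 g
    _ = _ := by rw [Finset.prod_const, hcard]

theorem sum_quad_same (F : (E d) → (E d) → ℝ) (l : ℕ) {ι : Type} [Fintype ι] (x : ι → (E d)) :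
    ∑ θ ∈ Finset.range l, quad (fun x y => F x y * same l θ x y) x =
      quad (fun x y => F x y * ∑ θ ∈ Finset.range l, same l θ x y) x := by
  unfold quad
  rw [Finset.sum_comm]
  refine Finset.sum_congr rfl fun i _ => ?_
  rw [Finset.sum_comm]
  refine Finset.sum_congr rfl fun j _ => ?_
  beta_reduce
  rw [Finset.mul_sum]

theorem decouple3 {κ₀ f : ℝ → ℝ} (hκ0 : ∀ ρ, 0 ≤ κ₀ ρ) (hf0 : ∀ ρ, 0 ≤ f ρ) {R l : ℕ}
    (hfR : ∀ ρ : ℝ, (R : ℝ) ≤ ρ → f ρ = 0) (hl : d * R < l) {α r : ℝ} (hα : 0 ≤ α) (hr : 0 < r)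
    {ι : Type} [Fintype ι] (x : ι → (E d)) :
    (∑ θ ∈ Finset.range l, quad (V3 (rad (fun ρ => κ₀ ρ - cfac d R l * f ρ)) (tauf d α r l) l θ) x) ≤
      l * quad (rad (fun ρ => κ₀ ρ - f ρ - α * kac d r ρ)) x := by
  have hl0 : 0 < l := by omega
  have hl0' : (0 : ℝ) < l := by exact_mod_cast hl0
  set c : ℝ := cfac d R l with hc
  have hRl : d * (R : ℝ) / l < 1 := by
    rw [div_lt_one hl0']
    exact_mod_cast hl
  have h1pos : 0 < 1 - d * (R : ℝ) / l := by linarith
  have hcpos : 0 < c := inv_pos.mpr h1pos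
  set τ : ℝ := tauf d α r l with hτ
  -- expand the right side
  have hR : quad (rad (fun ρ => κ₀ ρ - f ρ - α * kac d r ρ)) x =
      quad (rad κ₀) x - quad (rad f) x - α * quad (rad (kac d r)) x := by
    rw [← quad_smul, ← quad_sub, ← quad_sub]
    rfl
  -- expand each term of the left side
  have hL : ∀ θ, quad (V3 (rad (fun ρ => κ₀ ρ - c * f ρ)) τ l θ) x =
      quad (fun x y => rad κ₀ x y * same l θ x y) x -
        quad (fun x y => (c * rad f x y) * same l θ x y) x - τ * quad (same l θ) x := by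
    intro θ
    rw [← quad_smul, ← quad_sub, ← quad_sub]
    unfold quad V3 rad
    refine Finset.sum_congr rfl fun i _ => Finset.sum_congr rfl fun j _ => ?_
    ring
  have hcore : ∀ θ, quad (fun x y => rad κ₀ x y * same l θ x y) x ≤ quad (rad κ₀) x := by
    intro θ
    apply quad_mono
    intro i j
    refine mul_le_of_le_one_right (hκ0 _) ?_
    unfold same
    split_ifs <;> norm_num
  have hkac : ∀ θ, α * quad (rad (kac d r)) x ≤ τ * quad (same l θ) x := by
    intro θ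
    have h := kac_quad_le l θ hl0 hr x
    have h' := mul_le_mul_of_nonneg_left h hα
    refine h'.trans (le_of_eq ?_)
    rw [hτ, tauf]; ring
  have htail : (l : ℝ) * quad (rad f) x ≤
      ∑ θ ∈ Finset.range l, quad (fun x y => (c * rad f x y) * same l θ x y) x := by
    rw [sum_quad_same, ← quad_smul]
    apply quad_mono
    intro i j
    by_cases hr' : ‖x i - x j‖ < (R : ℝ)
    · have h2 := sum_same_ge l hl0 R hr'
      have h3 : (l : ℝ) ≤ c * ∑ θ ∈ Finset.range l, same l θ (x i) (x j) := by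
        have h4 : (l : ℝ) = c * ((l : ℝ) - d * (R : ℝ)) := by
          have h6 : (l : ℝ) - d * (R : ℝ) = (1 - d * (R : ℝ) / l) * l := by
            field_simp
          rw [h6, ← mul_assoc, hc, cfac, inv_mul_cancel₀ h1pos.ne', one_mul]
        calc (l : ℝ) = c * ((l : ℝ) - d * (R : ℝ)) := h4
          _ ≤ _ := mul_le_mul_of_nonneg_left h2 hcpos.le
      have h5 := mul_le_mul_of_nonneg_right h3 (hf0 ‖x i - x j‖)
      have h6 : rad f (x i) (x j) = f ‖x i - x j‖ := rfl
      rw [h6]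
      linarith
    · have h6 : rad f (x i) (x j) = 0 := hfR _ (not_lt.mp hr')
      rw [h6]
      simp
  rw [hR]
  simp_rw [hL]
  rw [Finset.sum_sub_distrib, Finset.sum_sub_distrib]
  have hsum1 : ∑ θ ∈ Finset.range l, quad (fun x y => rad κ₀ x y * same l θ x y) x
      ≤ l * quad (rad κ₀) x := by
    have := Finset.sum_le_sum (fun θ (_ : θ ∈ Finset.range l) => hcore θ)
    rwa [Finset.sum_const, Finset.card_range, nsmul_eq_mul] at this
  have hsum2 : (l : ℝ) * (α * quad (rad (kac d r)) x) ≤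
      ∑ θ ∈ Finset.range l, τ * quad (same l θ) x := by
    have := Finset.sum_le_sum (fun θ (_ : θ ∈ Finset.range l) => hkac θ)
    rwa [Finset.sum_const, Finset.card_range, nsmul_eq_mul] at this
  linarith

theorem upper3 {κ₀ f : ℝ → ℝ} (_hκm : Measurable κ₀) (_hfm : Measurable f)
    (hκ0 : ∀ ρ, 0 ≤ κ₀ ρ) (hf0 : ∀ ρ, 0 ≤ f ρ) {R l : ℕ} (hfR : ∀ ρ : ℝ, (R : ℝ) ≤ ρ → f ρ = 0)
    (hl : d * R < l) {α r : ℝ} (hα : 0 ≤ α) (hr : 0 < r) {κ κ' : ℝ} (hκ : 1 ≤ κ) (_hκ' : 1 ≤ κ')
    (hN : Nice (d := d) κ (rad (fun ρ => κ₀ ρ - f ρ - α * kac d r ρ)))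
    (hN' : Nice (d := d) κ' (rad (fun ρ => κ₀ ρ - cfac d R l * f ρ))) (ν C : ℝ)
    (hC : ∑' i : ℕ, ENNReal.ofReal (Real.exp (-(tauf d α r l * (i : ℝ) ^ 2 / 2))) *
        GX (box d l) (rad (fun ρ => κ₀ ρ - cfac d R l * f ρ)) (ν + tauf d α r l * i) ≤
      ENNReal.ofReal (Real.exp C)) :
    PW (d := d) (rad (fun ρ => κ₀ ρ - f ρ - α * kac d r ρ)) ν ≤ C / (l : ℝ) ^ d := by
  have hl0 : 0 < l := by omega
  have hl0' : (0 : ℝ) < l := by exact_mod_cast hl0
  have hX := GX_laplace (measurableSet_box l) hN'.meas ν (tauf d α r l)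
  have hX2 := hX.trans hC
  have hC0 : 0 ≤ C := by
    have h1 : (1 : ℝ≥0∞) ≤ ENNReal.ofReal (Real.exp C) := (one_le_GX _ _ _).trans hX2
    have h2 := ENNReal.toReal_mono ENNReal.ofReal_ne_top h1
    rw [ENNReal.toReal_one, ENNReal.toReal_ofReal (Real.exp_pos _).le] at h2
    exact Real.one_le_exp_iff.1 h2
  refine PW_le_of_blocks hκ hN ν hl0 fun n hn => ?_
  have hbox : ((l : ℝ) * n) = ((n * l : ℕ) : ℝ) := by push_cast; ring
  rw [hbox]
  refine GX_jensen (ν' := ν) (measurableSet_box _) hl0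
    (fun θ => V3 (rad (fun ρ => κ₀ ρ - cfac d R l * f ρ)) (tauf d α r l) l θ)
    (fun θ => measurable_V3 hN'.meas _ l θ) ?_ ?_
  · intro θ hθ
    refine (block_product3 hN'.meas hN'.symm hN'.trans _ ν hl0 hθ).trans ?_
    refine (pow_le_pow_left' hX2 _).trans ?_
    rw [← ENNReal.ofReal_pow (Real.exp_pos _).le, ← Real.exp_nat_mul]
    apply ENNReal.ofReal_le_ofReal
    apply Real.exp_le_exp.2
    push_cast
    have h3 : ((n : ℝ) + 1) ^ d ≤ ((n : ℝ) + 2) ^ d := by gcongr; norm_num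
    calc ((n : ℝ) + 1) ^ d * C ≤ ((n : ℝ) + 2) ^ d * C := by gcongr
      _ = _ := by ring
  · intro N x _
    have h := decouple3 hκ0 hf0 hfR hl hα hr x
    rw [Finset.sum_sub_distrib, Finset.sum_const, Finset.card_range, nsmul_eq_mul,
      ← Finset.sum_div, le_div_iff₀ hl0']
    linarith

end Vale.Agent.P171.Dim
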